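import Vale.Agent.P207.H248.TMapA
import Vale.Agent.P207.H992.Sum
import Vale.Agent.P207.Kat.Spec

/-!
# P207, block B2, first half: the stretch inequality `g → g'` up to third order (helper248)
-/

open scoped Manifold ContDiff ENNReal Topology
open Bundle MeasureTheory Set Filter Topology

noncomputable section

set_option maxSynthPendingDepth 3
set_option linter.unusedSectionVars false

namespace Vale.Agent.P207.H248

open Vale.Agent.P255 (RMetric coefIn Gam Riem IsGeo Metric Npc ExpSys toMetric geo expg cc trans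
  IsGeodesic coefL chris chrisB IsMetricOn covD vel prodF Compat IsJacobi curv)
open Vale.Agent.P207.Q Vale.Agent.P207.Q.Fl
open Vale.Agent.P207.Q.H545 (Rf Rf_eq)
open Vale.Agent.P207.H442 (frCalc Hd Rs ev intF isInt_intF ext_ev ev_mul ev_add ev_sub ev_smul
  ev_sum ev_neg FrCalc)
open Vale.Agent.P207.Kat (Dat GAdm Kf Zf Qf)

variable {n : ℕ} {M : Type} [TopologicalSpace M] [ChartedSpace (EV n) M]
  [IsManifold 𝓘(ℝ, EV n) ∞ M] {g : RMetric (EV n) M} [NeZero n] [CompactSpace M] [T2Space M]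

/-- smooth functions with values in a product -/
theorem smF_pi {y : Fin n → Fr g → ℝ} (h : ∀ i, SmF (y i)) : SmF (fun p i => y i p) :=
  SmF.congr_rd (F := fun a z i => rd (y i) a z)
    (fun a z hz => by
      rw [rd_of_mem _ hz]
      funext i
      rw [rd_of_mem _ hz])
    fun a => contDiffOn_pi.2 fun i => h i a

theorem equi_of_gAdm {y : Fin n → SmFr g} (hy : GAdm y) : Equi (fun p i => ev p (y i)) := by
  intro A hA f
  funext i
  have h1 : ∀ j, ev (Fr.rot A f) (y j) = ∑ a, A.1 a j * ev f (y a) := fun j => hy.2 A hA f j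
  simp only [Matrix.mulVec, dotProduct, h1, Finset.mul_sum]
  rw [Finset.sum_comm]
  have h2 : A.1 * A.1.transpose = 1 := (Matrix.mem_orthogonalGroup_iff (Fin n) ℝ).1 A.2
  have h3 : ∀ a, ∑ j, A.1 i j * (A.1 a j * ev f (y a)) = (if i = a then 1 else 0) * ev f (y a) := by
    intro a
    have h4 : (A.1 * A.1.transpose) i a = if i = a then 1 else 0 := by
      rw [h2, Matrix.one_apply]
    rw [← h4, Matrix.mul_apply, Finset.sum_mul]
    refine Finset.sum_congr rfl fun j _ => ?_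
    rw [Matrix.transpose_apply]
    ring
  simp only [h3, ite_mul, one_mul, zero_mul, Finset.sum_ite_eq, Finset.mem_univ, if_true]

section Norms

variable [Nonempty (Fr g)] [MeasurableSpace M] [BorelSpace M] (D : Dat g)

theorem c_nonneg (s : ℕ) (u : SmFr g) : 0 ≤ D.c s u := by
  unfold Dat.c
  induction s generalizing u with
  | zero => exact norm_nonneg _
  | succ s ih =>
    change 0 ≤ H395.NSys.cN D.S s u + ∑ a, H395.NSys.cN D.S s (D.S.X a u)
    exact add_nonneg (ih u) (Finset.sum_nonneg fun a _ => ih _)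

theorem abs_ev_le (u : SmFr g) (p : Fr g) : |ev p u| ≤ D.c 0 u :=
  ContinuousMap.norm_coe_le_norm (u : C(Fr g, ℝ)) p

theorem c_le_succ (s : ℕ) (u : SmFr g) : D.c s u ≤ D.c (s + 1) u := by
  change D.c s u ≤ D.c s u + ∑ a, D.c s (D.S.X a u)
  have h1 : 0 ≤ ∑ a, D.c s (D.S.X a u) := Finset.sum_nonneg fun a _ => c_nonneg D s _
  linarith

theorem c_Hd_le (s : ℕ) (i : Fin n) (u : SmFr g) : D.c s (Hd g i u) ≤ D.c (s + 1) u := by
  change D.c s (Hd g i u) ≤ D.c s u + ∑ a, D.c s (D.S.X a u)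
  have h1 : D.c s (D.S.X (Sum.inl i) u) ≤ ∑ a, D.c s (D.S.X a u) :=
    Finset.single_le_sum (f := fun a => D.c s (D.S.X a u)) (fun a _ => c_nonneg D s _)
      (Finset.mem_univ _)
  have h2 := c_nonneg D s u
  have h3 : D.c s (D.S.X (Sum.inl i) u) = D.c s (Hd g i u) := rfl
  rw [h3] at h1
  linarith

theorem c_le_cV (s : ℕ) (y : Fin n → SmFr g) (i : Fin n) : D.c s (y i) ≤ D.cV s y :=
  Finset.single_le_sum (f := fun i => D.c s (y i)) (fun i _ => c_nonneg D s _) (Finset.mem_univ _)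

theorem c_le_cT (s : ℕ) (k : Fin n → Fin n → SmFr g) (i j : Fin n) : D.c s (k i j) ≤ D.cT s k := by
  have h1 : D.c s (k i j) ≤ ∑ j, D.c s (k i j) :=
    Finset.single_le_sum (f := fun j => D.c s (k i j)) (fun j _ => c_nonneg D s _)
      (Finset.mem_univ _)
  have h2 : ∑ j, D.c s (k i j) ≤ D.cT s k :=
    Finset.single_le_sum (f := fun i => ∑ j, D.c s (k i j))
      (fun i _ => Finset.sum_nonneg fun j _ => c_nonneg D s _) (Finset.mem_univ _)
  exact h1.trans h2

theorem cV_nonneg (s : ℕ) (y : Fin n → SmFr g) : 0 ≤ D.cV s y :=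
  Finset.sum_nonneg fun i _ => c_nonneg D s _

theorem cT_nonneg (s : ℕ) (k : Fin n → Fin n → SmFr g) : 0 ≤ D.cT s k :=
  Finset.sum_nonneg fun i _ => Finset.sum_nonneg fun j _ => c_nonneg D s _

/-- the bounds of the expansion in terms of the norms -/
theorem ykBd {y : Fin n → SmFr g} {k : Fin n → Fin n → SmFr g} {δ : ℝ}
    (hy : GAdm y) (hk : ∀ i j, k i j = k j i) (hδ : D.cT 2 k + D.cV 1 y ≤ δ) (hδ1 : δ ≤ 1) :
    YKBd (fun p i => ev p (y i)) (fun i j p => ev p (k i j)) δ where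
  δ0 := (add_nonneg (cT_nonneg D 2 k) (cV_nonneg D 1 y)).trans hδ
  δ1 := hδ1
  smy := smF_pi fun i => (y i).2
  y0 p := by
    rw [hy.1, map_zero]
  smk i j := (k i j).2
  symk i j p := by
    rw [hk i j]
  by0 p i := by
    have h1 := abs_ev_le D (y i) p
    have h2 := c_le_succ D 0 (y i)
    have h3 := c_le_cV D 1 y i
    have h4 := cT_nonneg D 2 k
    change |ev p (y i)| ≤ δ
    linarith
  by1 p i := by
    have h1 := abs_ev_le D (Hd g 0 (y i)) p
    have h2 := c_Hd_le D 0 0 (y i)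
    have h3 := c_le_cV D 1 y i
    have h4 := cT_nonneg D 2 k
    change |ev p (Hd g 0 (y i))| ≤ δ
    linarith
  bk0 p i j := by
    have h1 := abs_ev_le D (k i j) p
    have h2 := c_le_succ D 0 (k i j)
    have h2' := c_le_succ D 1 (k i j)
    have h3 := c_le_cT D 2 k i j
    have h4 := cV_nonneg D 1 y
    change |ev p (k i j)| ≤ δ
    linarith
  bk1 p m i j := by
    have h1 := abs_ev_le D (Hd g m (k i j)) p
    have h2 := c_Hd_le D 0 m (k i j)
    have h2' := c_le_succ D 1 (k i j)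
    have h3 := c_le_cT D 2 k i j
    have h4 := cV_nonneg D 1 y
    change |ev p (Hd g m (k i j))| ≤ δ
    linarith
  bk2 p l m i j := by
    have h1 := abs_ev_le D (Hd g l (Hd g m (k i j))) p
    have h2 := c_Hd_le D 0 l (Hd g m (k i j))
    have h2' := c_Hd_le D 1 m (k i j)
    have h3 := c_le_cT D 2 k i j
    have h4 := cV_nonneg D 1 y
    change |ev p (Hd g l (Hd g m (k i j)))| ≤ δ
    linarith

end Norms

variable [Nonempty (Fr g)]

/-- the curvature term -/
theorem fK_eq (y : Fin n → SmFr g) (p : Fr g) :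
    fK (fun i => ev p (y i)) p 0 0 =
      - ev p (∑ i, ∑ j, Kf (frCalc g) i j * y i * y j) := by
  rw [ev_sum]
  simp only [ev_sum, ev_mul]
  unfold fK
  rw [← Finset.sum_neg_distrib, Finset.sum_comm]
  refine Finset.sum_congr rfl fun i _ => ?_
  rw [← Finset.sum_neg_distrib]
  refine Finset.sum_congr rfl fun j _ => ?_
  have h1 : ev p (Kf (frCalc g) i j) = - Rf g p i 0 0 j := rfl
  have h2 : Rf g p 0 j i 0 = Rf g p i 0 0 j :=
    congrArg (fun u : SmFr g => ev p u) ((frCalc g).R_pair 0 j i 0)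
  rw [h1, h2]
  ring

/-- the expansion in the language of the frame calculus -/
theorem XA_eq (y : Fin n → SmFr g) (k : Fin n → Fin n → SmFr g) (p : Fr g) :
    XA (fun p i => ev p (y i)) (fun i j p => ev p (k i j)) p / 2 =
      ev p (k 0 0) / 2 + ev p (H992.LA (frCalc g) k y) := by
  have e0 : ev p (H992.LA (frCalc g) k y) = 1 / 2 * (
      ev p (∑ i, (frCalc g).H 0 (y i) * (frCalc g).H 0 (y i)) +
      ev p (∑ i, ∑ j, Kf (frCalc g) i j * y i * y j) +
      ev p (∑ i, y i * (frCalc g).H i (k 0 0)) +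
      2 * ev p (∑ i, k 0 i * (frCalc g).H 0 (y i))) := by
    unfold H992.LA
    rw [ev_smul, ev_add, ev_add, ev_add, ev_smul]
  have e1 : ev p (∑ i, (frCalc g).H 0 (y i) * (frCalc g).H 0 (y i)) =
      ∑ i, dH 0 (fun q => ev q (y i)) p ^ 2 :=
    (ev_sum _ _ _).trans (Finset.sum_congr rfl fun i _ => (pow_two _).symm)
  have e2 : ev p (∑ i, y i * (frCalc g).H i (k 0 0)) =
      ∑ m, ev p (y m) * dH m (fun q => ev q (k 0 0)) p := ev_sum _ _ _
  have e3 : ev p (∑ i, k 0 i * (frCalc g).H 0 (y i)) =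
      ∑ j, dH 0 (fun q => ev q (y j)) p * ev p (k 0 j) :=
    (ev_sum _ _ _).trans (Finset.sum_congr rfl fun i _ => mul_comm _ _)
  have e4 := fK_eq y p
  rw [e0, e1, e2, e3]
  unfold XA lk
  rw [e4]
  ring

/-- the lower bound of the main term -/
theorem main_ge {R δ : ℝ} (hR : RBd g R) {y : Fr g → Fin n → ℝ}
    {k : Fin n → Fin n → Fr g → ℝ} (h : YKBd y k δ) (hs : 12 * n ^ 2 * R * δ ≤ 1) (f : Fr g) :
    1 / 2 ≤ 1 + XA y k f / 2 - k 0 0 f ^ 2 / 8 := by
  have hn1 : (1 : ℝ) ≤ n := by exact_mod_cast Nat.one_le_iff_ne_zero.2 (NeZero.ne n)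
  have hR1 := hR.one_le
  have hδ0 := h.δ0
  have h6 := abs_le.1 (abs_XA_sub_le hR h f)
  have h7 := abs_le.1 (h.bk0 f 0 0)
  have hpos1 : 0 ≤ 12 * n ^ 2 * R := by positivity
  have h8 : 5 * n ^ 2 * R * δ ^ 2 ≤ 5 / 12 * 1 * 1 := by
    have h9 : 5 * n ^ 2 * R * δ ^ 2 = 5 / 12 * (12 * n ^ 2 * R * δ) * δ := by ring
    rw [h9]
    have h10 : 5 / 12 * (12 * n ^ 2 * R * δ) ≤ 5 / 12 * 1 := by linarith
    exact mul_le_mul h10 h.δ1 hδ0 (by norm_num)
  have h10 : δ ≤ 1 / 12 := by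
    have h11 : 12 * 1 * 1 * δ ≤ 12 * n ^ 2 * R * δ := by
      have h12 : (1 : ℝ) ≤ n ^ 2 := one_le_pow₀ hn1
      have h13 : (12 * 1 * 1 : ℝ) ≤ 12 * n ^ 2 * R := by nlinarith
      exact mul_le_mul_of_nonneg_right h13 hδ0
    linarith
  have h14 : k 0 0 f ^ 2 ≤ 1 := by
    have h15 : k 0 0 f ^ 2 ≤ δ ^ 2 := by
      rw [← sq_abs]
      exact pow_le_pow_left₀ (abs_nonneg _) (h.bk0 f 0 0) 2
    nlinarith
  linarith [h6.1, h7.1]

theorem eq_kS {g' : RMetric (EV n) M} {k : Fin n → Fin n → SmFr g} (hk : Kat.IsK g g' k) :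
    k = H992.kS g g' := by
  funext i j
  refine ext_ev fun p => ?_
  rw [hk p i j]
  rfl

theorem isK_of {g' : RMetric (EV n) M} {k : Fin n → Fin n → SmFr g} (hk : Kat.IsK g g' k) :
    IsK g' (fun i j (p : Fr g) => ev p (k i j)) := by
  intro p i j
  have h1 := hk p i j
  change _ = (if i = j then 1 else 0) + ev p (k i j)
  rw [h1]
  ring

theorem symm_of {g' : RMetric (EV n) M} {k : Fin n → Fin n → SmFr g} (hk : Kat.IsK g g' k)
    (i j : Fin n) : k i j = k j i := by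
  refine ext_ev fun p => ?_
  rw [hk p i j, hk p j i]
  have h1 : g'.inner p.pt (p.e i) (p.e j) = g'.inner p.pt (p.e j) (p.e i) := g'.symm p.pt _ _
  have h2 : (if i = j then (1 : ℝ) else 0) = if j = i then 1 else 0 := by
    by_cases h : i = j
    · simp [h]
    · simp [h, Ne.symm h]
  rw [h2]
  exact congrArg (fun x : ℝ => x - if j = i then 1 else 0) h1

variable [MeasurableSpace M] [BorelSpace M]

/-- **(B2), first half** -/
theorem b2A [ConnectedSpace M] (D : Dat g) (hn : 2 ≤ n) (hN : NegCurvature g) :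
    ∃ K : ℝ, 0 < K ∧ ∀ K' ≥ K, ∀ (g' : RMetric (EV n) M) (D' : Dat g')
    (k : Fin n → Fin n → SmFr g) (y : Fin n → SmFr g), NegCurvature g' →
    D'.μ univ = D.μ univ → Kat.IsK g g' k → GAdm y → K' * (D.cT 2 k + D.cV 1 y) ≤ 1 →
    ksEntropy D.m (D.φ 1) ≤ ENNReal.ofReal
      (1 - D.Q k y / (2 * n) + K' * (D.cT 2 k + D.cV 1 y) ^ 3) * topEntropy (D'.φ 1) := by
  obtain ⟨R, hR⟩ := exists_RBd g
  obtain ⟨C, ε, hC⟩ := H992.exists_consts n
  have hR1 := hR.one_le
  have hC0 := hC.nonneg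
  have hε := hC.pos
  have hn1 : (1 : ℝ) ≤ n := by exact_mod_cast (by omega : 1 ≤ n)
  have hW0 : 0 ≤ cW n R := by
    unfold cW
    exact add_nonneg cE_nonneg (by positivity)
  refine ⟨12 * n ^ 2 * R + 1 / ε + 4 * C + cW n R + 1, by positivity, ?_⟩
  intro K' hK' g' D' k y hN' hvol hk hy hsm
  set δ := D.cT 2 k + D.cV 1 y with hδ
  have hδ0 : 0 ≤ δ := add_nonneg (cT_nonneg D 2 k) (cV_nonneg D 1 y)
  have hpos1 : 0 ≤ 12 * n ^ 2 * R := by positivity
  have hpos2 : 0 ≤ 1 / ε := by positivity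
  have hmono : ∀ c : ℝ, c ≤ K' → c * δ ≤ 1 := fun c hc =>
    (mul_le_mul_of_nonneg_right hc hδ0).trans hsm
  have hδ1 : δ ≤ 1 := by
    have := hmono 1 (by linarith)
    linarith
  have hs : 12 * n ^ 2 * R * δ ≤ 1 := hmono _ (by linarith)
  have hδε : δ ≤ ε := by
    have h1 := hmono (1 / ε) (by linarith)
    rwa [one_div_mul_eq_div, div_le_one hε] at h1
  have hCδ : C * δ ^ 3 ≤ 1 / 4 := by
    have h1 := hmono (4 * C) (by linarith)
    have h2 : δ ^ 3 ≤ δ := by
      have h3 : δ ^ 2 ≤ 1 := by nlinarith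
      nlinarith
    have h4 : C * δ ^ 3 ≤ C * δ := mul_le_mul_of_nonneg_left h2 hC0
    linarith
  have hB := ykBd D hy (fun i j => symm_of hk i j) (le_refl _) hδ1
  rw [← hδ] at hB
  have hev' : ∀ (f : Fr g) i j, ev f (k i j) = H992.KK g' f i j := fun f i j => by
    rw [eq_kS hk]
    exact H992.ev_kS i j f
  have hev : ∀ f : Fr g, ev f (k 0 0) = H992.KK g' f 0 0 := fun f => hev' f 0 0
  have hKK : ∀ (f : Fr g) i j, |H992.KK g' f i j| ≤ δ := fun f i j => by
    rw [← hev' f i j]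
    exact hB.bk0 f i j
  have hprob := D.hP.prob
  have S := H992.Setup.ofMP D.hμ D.hm D'.hμ D'.hm D.hP (by
    unfold Measure.real
    rw [hvol])
  have hI : (frCalc g).IsInt (intF D.mP) := isInt_intF D.hP D.hφ D.hmp
  -- the test map
  obtain ⟨Θ, hΘ⟩ := exists_testMap D.hφ (npc_of_neg hN) (npc_of_neg hN') hR hB
    (equi_of_gAdm hy) (isK_of hk) hs
  have hle : ∀ f : Fr g, Θ.w (f.ut 0) ≤ 1 + H992.KK g' f 0 0 / 2 - H992.KK g' f 0 0 ^ 2 / 8 +
      ev f (H992.LA (frCalc g) (H992.kS g g') y) + cW n R * δ ^ 3 := by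
    intro f
    have h1 := hΘ f
    rw [XA_eq y k f, hev f] at h1
    rw [← eq_kS hk]
    linarith
  have hA := H992.mean_le_A hC S hI hδ0 hδε hKK y Θ.cont_w hle
  have hQ : Qf (frCalc g) (intF D.mP) (H992.kS g g') y = D.Q k y := by
    rw [← eq_kS hk]
    rfl
  rw [hQ] at hA
  -- the bound is positive
  have hsum := abs_le.1 (H992.sumA hC S hI hδ0 hδε hKK y)
  rw [hQ] at hsum
  have hlow : (1 / 2 : ℝ) ≤ ∫ f : Fr g, (1 + H992.KK g' f 0 0 / 2 - H992.KK g' f 0 0 ^ 2 / 8 +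
      ev f (H992.LA (frCalc g) (H992.kS g g') y)) ∂D.mP := by
    have h1 : ∀ f : Fr g, (1 / 2 : ℝ) ≤ 1 + H992.KK g' f 0 0 / 2 - H992.KK g' f 0 0 ^ 2 / 8 +
        ev f (H992.LA (frCalc g) (H992.kS g g') y) := fun f => by
      have h4 := main_ge hR hB hs f
      rw [XA_eq y k f, hev f] at h4
      rw [← eq_kS hk]
      linarith
    have h2 : ∫ _ : Fr g, (1 / 2 : ℝ) ∂D.mP = 1 / 2 := by
      rw [integral_const]
      simp only [probReal_univ, one_smul]
    rw [← h2]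
    have c0 := H992.continuous_KK_apply (g₀ := g) g' 0 0
    have c1 : Continuous (fun f : Fr g => 1 + H992.KK g' f 0 0 / 2 - H992.KK g' f 0 0 ^ 2 / 8) :=
      (continuous_const.add (c0.div_const 2)).sub ((c0.pow 2).div_const 8)
    have c2 : Continuous (fun f : Fr g => ev f (H992.LA (frCalc g) (H992.kS g g') y)) :=
      H992.continuous_ev _
    exact integral_mono (integrable_const _)
      ((c1.add c2).integrable_of_hasCompactSupport (HasCompactSupport.of_compactSpace _)) h1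
  have hδ3 : 0 ≤ δ ^ 3 := by positivity
  have hKδ : (C + cW n R) * δ ^ 3 ≤ K' * δ ^ 3 :=
    mul_le_mul_of_nonneg_right (by linarith) hδ3
  have hAle : ∫ p, Θ.w p ∂D.m ≤ 1 - D.Q k y / (2 * n) + K' * δ ^ 3 := by linarith
  have hApos : 0 < 1 - D.Q k y / (2 * n) + K' * δ ^ 3 := by
    have h1 : 0 ≤ K' * δ ^ 3 := by
      have : 0 ≤ cW n R * δ ^ 3 := mul_nonneg hW0 hδ3
      have : 0 ≤ C * δ ^ 3 := mul_nonneg hC0 hδ3
      linarith
    linarith [hsum.2]
  exact H608.one_sided hn hN (npc_of_neg hN') D.hφ D'.hφ D.hμ D.hm Θ hApos hAle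

end Vale.Agent.P207.H248
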