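import Vale.Agent.P207.H248.BothOf
import Vale.Agent.P207.N4.Geo.FinalQ
import Vale.Agent.P207.N5.Geo.Main

/-!
# P207: dimension three and strict quarter pinching in one statement
-/

open scoped Manifold ContDiff ENNReal

noncomputable section

namespace Vale.Agent.P207F.QN

open Vale.Agent.P255 (RMetric)
open Vale.Agent.P207F

/-- **Dimension three or strict quarter pinching.** On a closed connected manifold of dimension
`n ≥ 3` let `g` be a metric of negative curvature; if `n = 3` or `g` is strictly quarter-pinched,
then `h_L ≤ h_top`, with equality if and only if `g` is locally symmetric, and if and only if `g`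
has constant curvature. -/
theorem both {n : ℕ} (hn : 3 ≤ n) (M : Type) [TopologicalSpace M] [CompactSpace M] [T2Space M]
    [ConnectedSpace M] [ChartedSpace (EV n) M] [IsManifold 𝓘(ℝ, EV n) ∞ M] [MeasurableSpace M]
    [BorelSpace M] :
    (∀ g : RMetric (EV n) M, WellDefined (stdB n) g) ∧
    ∀ g : RMetric (EV n) M, NegCurvature g ∧ (n = 3 ∨ QuarterPinched g) →
      NegCurvature g ∧ hLiou (stdB n) g ≤ hTop g ∧
      (hLiou (stdB n) g = hTop g ↔ LocSymmetric g) ∧
      (hLiou (stdB n) g = hTop g ↔ ∃ κ : ℝ, 0 < κ ∧ ConstCurvature g κ) :=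
  bothQ_of hn (fun {_} => P207.N4.V.logicV)

end Vale.Agent.P207F.QN
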