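import Vale.Agent.P207.N3.Geo.Final
import Vale.Agent.P207.N4.Geo.FinalH
import Vale.Agent.P207.N4.Geo.FinalQ

/-!
# P207: dimension three together with the class `EntropyPinched`, from the logic
-/

open scoped Manifold ContDiff ENNReal

noncomputable section

namespace Vale.Agent.P207F.QN

open Vale.Agent.P255 (RMetric)
open Vale.Agent.P207F

variable {n : ℕ} {M : Type} [TopologicalSpace M] [CompactSpace M] [T2Space M] [ConnectedSpace M]
  [ChartedSpace (EV n) M] [IsManifold 𝓘(ℝ, EV n) ∞ M] [MeasurableSpace M] [BorelSpace M]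

/-- **Dimension three or the class `EntropyPinched`**, from the logic. On a closed connected
manifold of dimension `n ≥ 3` let `g` be a metric of negative curvature; if `n = 3` or `g` is in
the class, then `h_L ≤ h_top`, with equality if and only if `g` is locally symmetric, and if and
only if `g` has constant curvature. -/
theorem both_of (hn : 3 ≤ n) (hL : ∀ [P207.N4.Dim], P207.N4.LogicH (P207.N4.HQ P207.N4.Dim.m)) :
    (∀ g : RMetric (EV n) M, WellDefined (stdB n) g) ∧
    ∀ g : RMetric (EV n) M, NegCurvature g ∧ (n = 3 ∨ EntropyPinched g) →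
      NegCurvature g ∧ hLiou (stdB n) g ≤ hTop g ∧
      (hLiou (stdB n) g = hTop g ↔ LocSymmetric g) ∧
      (hLiou (stdB n) g = hTop g ↔ ∃ κ : ℝ, 0 < κ ∧ ConstCurvature g κ) := by
  refine final_n (by omega) (P := fun g => NegCurvature g ∧ (n = 3 ∨ EntropyPinched g))
    (fun _ h => h.1) ?_
  rintro g ⟨hN, h3 | hQ⟩ φ μ m hφ hμ hm heq
  · subst h3
    exact P207.N3.core_N3 g hN φ μ m hφ hμ hm heq
  · exact P207.N4.core_of_entropy_n hn hL g hQ φ μ m hφ hμ hm heq

/-- The same for strict quarter pinching only. -/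
theorem bothQ_of (hn : 3 ≤ n) (hL : ∀ [P207.N4.Dim], P207.N4.LogicQ fun a b => b < 2 * a) :
    (∀ g : RMetric (EV n) M, WellDefined (stdB n) g) ∧
    ∀ g : RMetric (EV n) M, NegCurvature g ∧ (n = 3 ∨ QuarterPinched g) →
      NegCurvature g ∧ hLiou (stdB n) g ≤ hTop g ∧
      (hLiou (stdB n) g = hTop g ↔ LocSymmetric g) ∧
      (hLiou (stdB n) g = hTop g ↔ ∃ κ : ℝ, 0 < κ ∧ ConstCurvature g κ) := by
  refine final_n (by omega) (P := fun g => NegCurvature g ∧ (n = 3 ∨ QuarterPinched g))
    (fun _ h => h.1) ?_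
  rintro g ⟨hN, h3 | hQ⟩ φ μ m hφ hμ hm heq
  · subst h3
    exact P207.N3.core_N3 g hN φ μ m hφ hμ hm heq
  · exact P207.N4.core_of_quarter_n hn hL g hQ φ μ m hφ hμ hm heq

end Vale.Agent.P207F.QN
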