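import Vale.Agent.P207.H248.VarG
import Vale.Agent.P207.H608.ExpCont
import Vale.Agent.P207.Q.H916.Fr8

/-!
# P207, second order expansion: from the frame bundle to the unit tangent bundle (helper248)

`exists_desc`: a continuous function on the frame bundle which bounds a function of the unit tangent
vector can be replaced by a continuous function of the unit tangent vector.
-/

open scoped Manifold ContDiff ENNReal Topology
open Bundle MeasureTheory Set Filter Topology

noncomputable section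

set_option maxSynthPendingDepth 3
set_option linter.unusedSectionVars false

namespace Vale.Agent.P207.H248

open Vale.Agent.P255 (RMetric coefIn Gam Riem IsGeo Metric Npc ExpSys toMetric geo expg cc trans
  IsGeodesic coefL chris chrisB IsMetricOn covD vel prodF Compat IsJacobi curv)
open Vale.Agent.P207.Q Vale.Agent.P207.Q.Fl
open H892 (Stab exists_frame_ut isBdl_ut smul_def' isClosed_Stab)

variable {n : ℕ} {M : Type} [TopologicalSpace M] [ChartedSpace (EV n) M]
  [IsManifold 𝓘(ℝ, EV n) ∞ M] {g : RMetric (EV n) M} [NeZero n] [CompactSpace M] [T2Space M]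

theorem ut_rot {A : Fr.On n} (hA : A ∈ Stab n) (f : Fr g) : (Fr.rot A f).ut 0 = f.ut 0 := by
  have h1 := (isBdl_ut g).inv ⟨A⁻¹, (Stab n).inv_mem hA⟩ f
  change (Fr.rot (A⁻¹)⁻¹ f).ut 0 = f.ut 0 at h1
  rwa [inv_inv] at h1

theorem exists_stab {f f' : Fr g} (h : f.ut 0 = f'.ut 0) : ∃ A ∈ Stab n, Fr.rot A f = f' := by
  obtain ⟨A, hA⟩ := (isBdl_ut g).trans f f' h
  refine ⟨A.1⁻¹, (Stab n).inv_mem A.2, hA⟩

theorem isQuotientMap_ut : IsQuotientMap (fun f : Fr g => f.ut 0) := by
  have h1 : Continuous (fun f : Fr g => f.ut 0) := Fr.continuous_ut 0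
  have := t2Space_UT g
  exact h1.isClosedMap.isQuotientMap h1 exists_frame_ut

/-- the infimum over the stabiliser -/
def fib (W : Fr g → ℝ) (f : Fr g) : ℝ := sInf ((fun A : Fr.On n => W (Fr.rot A f)) '' Stab n)

theorem continuous_fib {W : Fr g → ℝ} (hW : Continuous W) : Continuous (fib W) := by
  have h1 : IsCompact (Stab n : Set (Fr.On n)) := isClosed_Stab.isCompact
  refine h1.continuous_sInf (f := fun (f : Fr g) (A : Fr.On n) => W (Fr.rot A f)) ?_
  exact hW.comp (Fr.continuous_rot.comp (continuous_snd.prodMk continuous_fst))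

theorem exists_fib {W : Fr g → ℝ} (hW : Continuous W) (f : Fr g) :
    ∃ A ∈ Stab n, fib W f = W (Fr.rot A f) := by
  have h1 : IsCompact (Stab n : Set (Fr.On n)) := isClosed_Stab.isCompact
  have h2 : Continuous fun A : Fr.On n => W (Fr.rot A f) :=
    hW.comp (Fr.continuous_rot.comp (continuous_id.prodMk continuous_const))
  obtain ⟨A, hA, h3⟩ := (h1.image h2).sInf_mem ⟨_, mem_image_of_mem _ (Stab n).one_mem⟩
  exact ⟨A, hA, h3.symm⟩

theorem fib_le {W : Fr g → ℝ} (hW : Continuous W) (f : Fr g) {A : Fr.On n} (hA : A ∈ Stab n) :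
    fib W f ≤ W (Fr.rot A f) := by
  have h1 : IsCompact (Stab n : Set (Fr.On n)) := isClosed_Stab.isCompact
  have h2 : Continuous fun A : Fr.On n => W (Fr.rot A f) :=
    hW.comp (Fr.continuous_rot.comp (continuous_id.prodMk continuous_const))
  exact csInf_le (h1.image h2).bddBelow (mem_image_of_mem _ hA)

theorem fib_rot {W : Fr g → ℝ} {f : Fr g} {A : Fr.On n} (hA : A ∈ Stab n) :
    fib W (Fr.rot A f) = fib W f := by
  unfold fib
  congr 1
  ext x
  constructor
  · rintro ⟨B, hB, rfl⟩
    exact ⟨A * B, (Stab n).mul_mem hA hB, by simp only [Fr.rot_rot]⟩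
  · rintro ⟨B, hB, rfl⟩
    refine ⟨A⁻¹ * B, (Stab n).mul_mem ((Stab n).inv_mem hA) hB, ?_⟩
    simp only [Fr.rot_rot, mul_inv_cancel_left]

/-- a frame of a unit vector -/
def sec (p : UT g) : Fr g := (exists_frame_ut p).choose

theorem sec_ut (p : UT g) : (sec p).ut 0 = p := (exists_frame_ut p).choose_spec

/-- **descent** -/
theorem exists_desc {W : Fr g → ℝ} (hW : Continuous W) {N : UT g → ℝ}
    (h : ∀ f : Fr g, N (f.ut 0) ≤ W f) :
    ∃ w : UT g → ℝ, Continuous w ∧ (∀ p, N p ≤ w p) ∧ ∀ f : Fr g, w (f.ut 0) ≤ W f := by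
  have hf : ∀ f : Fr g, fib W (sec (f.ut 0)) = fib W f := by
    intro f
    obtain ⟨A, hA, h1⟩ := exists_stab (sec_ut (f.ut 0)).symm
    rw [← h1, fib_rot hA]
  refine ⟨fun p => fib W (sec p), ?_, fun p => ?_, fun f => ?_⟩
  · rw [isQuotientMap_ut.continuous_iff]
    exact (continuous_fib hW).congr fun f => (hf f).symm
  · obtain ⟨A, hA, h1⟩ := exists_fib hW (sec p)
    change N p ≤ fib W (sec p)
    rw [h1]
    have h2 := h (Fr.rot A (sec p))
    rwa [ut_rot hA, sec_ut] at h2
  · change fib W (sec (f.ut 0)) ≤ W f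
    rw [hf f]
    have h1 := fib_le hW f (Stab n).one_mem
    rwa [Fr.rot_one] at h1

/-! ### equivariant fields -/

/-- equivariance under the stabiliser of the first vector -/
def Equi (y : Fr g → Fin n → ℝ) : Prop :=
  ∀ A ∈ Stab n, ∀ f : Fr g, y f = A.1.mulVec (y (Fr.rot A f))

/-- the vector of an equivariant field -/
def vecE (y : Fr g → Fin n → ℝ) (f : Fr g) : EV n := ∑ i, y f i • f.e i

theorem vecE_rot {y : Fr g → Fin n → ℝ} (hy : Equi y) {A : Fr.On n} (hA : A ∈ Stab n)
    (f : Fr g) : vecE y (Fr.rot A f) = vecE y f := by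
  unfold vecE
  rw [hy A hA f]
  simp only [Fr.rot_e, Finset.smul_sum, smul_smul, Matrix.mulVec, dotProduct, Finset.sum_smul]
  rw [Finset.sum_comm]
  refine Finset.sum_congr rfl fun i _ => Finset.sum_congr rfl fun k _ => ?_
  rw [mul_comm]

/-- the field on the unit tangent bundle -/
def YU (y : Fr g → Fin n → ℝ) (p : UT g) : EV n := vecE y (sec p)

theorem YU_ut {y : Fr g → Fin n → ℝ} (hy : Equi y) (f : Fr g) : YU y (f.ut 0) = vecE y f := by
  obtain ⟨A, hA, h1⟩ := exists_stab (sec_ut (f.ut 0)).symm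
  unfold YU
  rw [← h1, vecE_rot hy hA]

theorem continuous_YU {y : Fr g → Fin n → ℝ} (hy : Equi y) (hc : Continuous y) :
    Continuous fun p : UT g => (⟨p.pt, YU y p⟩ : TangentBundle 𝓘(ℝ, EV n) M) := by
  rw [isQuotientMap_ut.continuous_iff]
  have h1 : Continuous fun f : Fr g => (f.1.mulR (fun i (_ : Unit) => y f i)).vec () := by
    have h2 : Continuous fun f : Fr g => f.1.mulR (fun i (_ : Unit) => y f i) := by
      refine continuous_mulR.comp (Continuous.prodMk ?_ Fr.continuous_val)
      exact continuous_matrix fun i _ => (continuous_apply i).comp hc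
    exact (continuous_vec ()).comp h2
  refine h1.congr fun f => ?_
  have h3 : YU y (f.ut 0) = vecE y f := YU_ut hy f
  change _ = (⟨f.pt, YU y (f.ut 0)⟩ : TangentBundle 𝓘(ℝ, EV n) M)
  rw [h3]
  rfl

end Vale.Agent.P207.H248
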