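import Vale.Agent.P207.H248.Desc
import Vale.Agent.P207.H248.Tay

/-!
# P207, second order expansion: the pointwise expansion (helper248)

`W2_expand`: the square of the length of the velocity of `p ↦ exp (y p)` along the geodesic flow.
-/

open scoped Manifold ContDiff ENNReal Topology
open Bundle MeasureTheory Set Filter Topology

noncomputable section

set_option maxSynthPendingDepth 3
set_option linter.unusedSectionVars false

namespace Vale.Agent.P207.H248

open Vale.Agent.P255 (RMetric coefIn Gam Riem IsGeo Metric Npc ExpSys toMetric geo expg cc trans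
  IsGeodesic coefL chris chrisB IsMetricOn covD vel prodF Compat IsJacobi curv)
open Vale.Agent.P207.Q Vale.Agent.P207.Q.Fl
open Vale.Agent.P207.Q.H545 (Rf Rf_eq)

variable {n : ℕ} {M : Type} [TopologicalSpace M] [ChartedSpace (EV n) M]
  [IsManifold 𝓘(ℝ, EV n) ∞ M] {g : RMetric (EV n) M} [NeZero n] [CompactSpace M] [T2Space M]

/-- the derivative along the horizontal field of `e_i` -/
def dH (i : Fin n) (F : Fr g → ℝ) (p : Fr g) : ℝ := dZ (horZ g (Pi.single i 1)) F p

variable [Nonempty (Fr g)]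

/-- the horizontal flow -/
abbrev hfl (g : RMetric (EV n) M) [Nonempty (Fr g)] (ξ : Fin n → ℝ) (s : ℝ) (p : Fr g) : Fr g :=
  CSys.flow (horVF g ξ) s p

theorem dZ_hor (ξ : Fin n → ℝ) {F : Fr g → ℝ} (p : Fr g) :
    dZ (horZ g ξ) F p = ∑ i, ξ i * dH i F p := by
  unfold dH dZ
  change fderiv ℝ (rd F p.pt) (chF p.pt p.1) (hF ((mt g).coef p.pt) ξ (chF p.pt p.1)) = _
  rw [H608.hF_sum, map_sum]
  exact Finset.sum_congr rfl fun i _ => by rw [map_smul, smul_eq_mul]; rfl

theorem hasDerivAt_hfl (ξ : Fin n → ℝ) {F : Fr g → ℝ} (hF : SmF F) (p : Fr g) (s : ℝ) :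
    HasDerivAt (fun s => F (hfl g ξ s p)) (∑ i, ξ i * dH i F (hfl g ξ s p)) s := by
  have h1 := (isHorFlow_flow g ξ).isFlow.hasDerivAt hF p s
  rw [dZ_hor] at h1
  exact h1

theorem smF_dH (i : Fin n) {F : Fr g → ℝ} (hF : SmF F) : SmF (dH i F) :=
  (isHorFlow_flow g (Pi.single i 1)).isFlow.smF_dZ hF

theorem hfl_zero (ξ : Fin n → ℝ) (p : Fr g) : hfl g ξ 0 p = p := CSys.flow_zero _ _

/-- the base point of the horizontal flow -/
theorem pt_hfl (ξ : Fin n → ℝ) (s : ℝ) (p : Fr g) :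
    (hfl g ξ s p).pt = geo (mt g) p.pt (∑ i, ξ i • p.e i) s := by
  have h1 := (isHorFlow_flow g ξ p).2
  have hgeo := isGeodesic_hor h1
  have h0 : (CSys.flow (horVF g ξ) 0 p).1 = p.1 := by rw [CSys.flow_zero]
  have h2 : stv (fun t => (CSys.flow (horVF g ξ) t p).1.pt) 0 =
      (⟨p.pt, ∑ i, ξ i • p.e i⟩ : TangentBundle 𝓘(ℝ, EV n) M) := by
    refine stv_eq_of_deriv hgeo (by rw [h0]; rfl) ?_
    have ha : (CSys.flow (horVF g ξ) 0 p).1.pt ∈ (chartAt (EV n) p.pt).source := by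
      rw [h0]; exact mem_chart_source _ _
    refine (deriv_cc_hor h1 ha).deriv.trans ?_
    rw [h0]
    refine Finset.sum_congr rfl fun i _ => ?_
    congr 1
    exact P255.fderiv_trans_self p.pt (mem_chart_target (EV n) p.pt) _
  exact congrFun (eq_geo hgeo h2) s

theorem pt_hfl_one (ξ : Fin n → ℝ) (p : Fr g) :
    (hfl g ξ 1 p).pt = expg (mt g) p.pt (∑ i, ξ i • p.e i) := pt_hfl ξ 1 p

/-- the length for another metric of a combination of the vectors of a frame -/
theorem nrm_comb {g₁ : RMetric (EV n) M} (h₁ : Npc (mt g₁)) (q : Fr g) (A : Fin n → ℝ) :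
    (sys g₁ h₁).nrm q.pt (∑ i, A i • (chF q.pt q.1).2 i) =
      Real.sqrt (∑ i, ∑ j, A i * A j * (g₁.inner q.pt (q.e i) (q.e j) : ℝ)) := by
  have h1 : ∀ i, (chF q.pt q.1).2 i = q.e i := fun i =>
    P255.fderiv_trans_self q.pt (mem_chart_target (EV n) q.pt) _
  simp only [h1]
  unfold ExpSys.nrm
  congr 1
  change (mt g₁).ip q.pt _ _ = _
  have hip : ∀ v w : EV n, (g₁.inner q.pt v w : ℝ) = (mt g₁).ip q.pt v w := fun v w =>
    (ip_eq g₁ q.pt v w).symm
  simp only [hip]
  simp only [map_sum, map_smul, sum_apply, smul_apply, smul_eq_mul, Finset.mul_sum]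
  rw [Finset.sum_comm]
  refine Finset.sum_congr rfl fun i _ => Finset.sum_congr rfl fun k _ => ?_
  ring

/-- the Jacobi system along the geodesic flow -/
theorem exists_js {y : Fr g → Fin n → ℝ} (hy : SmF y) (p : Fr g) :
    ∃ A B : ℝ → Fin n → ℝ, IsJS g (y p) p A B ∧ (∀ i, A 0 i = if i = 0 then 1 else 0) ∧
      (∀ i, B 0 i = dH 0 (fun q => y q i) p) ∧
      ∀ b, (hfl g (y p) 1 p).pt ∈ (chartAt (EV n) b).source →
        HasDerivAt (fun t => chartAt (EV n) b (hfl g (y (hfl g (Pi.single 0 1) t p)) 1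
            (hfl g (Pi.single 0 1) t p)).pt)
          (∑ i, A 1 i • (chF b (hfl g (y p) 1 p).1).2 i) 0 := by
  have ha : p.pt ∈ (chartAt (EV n) p.pt).source := mem_chart_source _ _
  have hfl0 := isHorFlow_flow g (Pi.single (0 : Fin n) (1 : ℝ))
  set c : ℝ → Fr g := fun t => hfl g (Pi.single 0 1) t p with hc
  have hc0 : c 0 = p := hfl_zero _ _
  have hcc : ContinuousAt c 0 := (hfl0.continuous_left p).continuousAt
  have hz : HasDerivAt (fun t => chF p.pt (c t).1)
      (hF ((mt g).coef p.pt) (Pi.single 0 1) (chF p.pt (c 0).1)) 0 :=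
    (hfl0 p).2.eqn p.pt 0 (mem_univ _) (by
      change (c 0).pt ∈ _
      rw [hc0]; exact ha)
  have hyi : ∀ i, SmF (fun q => y q i) := fun i =>
    hy.clm (ContinuousLinearMap.proj (R := ℝ) (φ := fun _ : Fin n => ℝ) i)
  have hη : HasDerivAt (fun t => y (c t)) (fun i => dH 0 (fun q => y q i) p) 0 := by
    rw [hasDerivAt_pi]
    intro i
    have h1 := hfl0.isFlow.hasDerivAt (hyi i) p 0
    have h2 : dZ (horZ g (Pi.single 0 1)) (fun q => y q i)
        (CSys.flow (horVF g (Pi.single 0 1)) 0 p) = dH 0 (fun q => y q i) p := by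
      rw [CSys.flow_zero]
      rfl
    rw [h2] at h1
    exact h1
  obtain ⟨A, B, hJ, hA, hB, hend⟩ := var_curve hcc (a := p.pt) (by rw [hc0]; exact ha) hz hη
  have ho : Orth ((mt g).coef p.pt (chF p.pt (c 0).1).1) (chF p.pt (c 0).1).2 := by
    rw [hc0]
    exact orth_chFg g p p.pt ha
  have hver : ∀ y : St (Fin n) n, Brk.ver (0 : Matrix (Fin n) (Fin n) ℝ) y = 0 := by
    intro y
    have := H608.ver_smul (0 : ℝ) (0 : Matrix (Fin n) (Fin n) ℝ) y
    simpa using this
  have ht : hF ((mt g).coef p.pt) (Pi.single 0 1) (chF p.pt (c 0).1) =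
      H608.tvec ((mt g).coef p.pt) (Pi.single 0 1) 0 (chF p.pt (c 0).1) := by
    unfold H608.tvec
    rw [hver, add_zero]
  rw [ht, H608.cH_tvec ho] at hA
  rw [ht, H608.cV_tvec ho] at hB
  refine ⟨A, B, ?_, fun i => ?_, fun i => ?_, fun b hb => ?_⟩
  · simp only [hc0] at hJ
    exact hJ
  · rw [hA i, Pi.single_apply]
  · rw [hB i]
    simp
  · have h1 := hend 1 b (by simp only [hc0]; exact hb)
    simp only [hc0] at h1
    exact h1

end Vale.Agent.P207.H248
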