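import Vale.Agent.P207.H248.ExpA

/-!
# P207, second order expansion: the pointwise expansion, direction `g₀ → g₁` (helper248)
-/

open scoped Manifold ContDiff ENNReal Topology
open Bundle MeasureTheory Set Filter Topology

noncomputable section

set_option maxSynthPendingDepth 3
set_option linter.unusedSectionVars false

namespace Vale.Agent.P207.H248

open Vale.Agent.P255 (RMetric coefIn Gam Riem IsGeo Metric Npc ExpSys toMetric geo expg cc trans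
  IsGeodesic coefL chris chrisB IsMetricOn covD vel prodF Compat IsJacobi curv)
open Vale.Agent.P207.Q Vale.Agent.P207.Q.Fl
open Vale.Agent.P207.Q.H545 (Rf Rf_eq)

/-- `|∑_{i<n} x_i| ≤ n c` -/
theorem abs_sum_le {n : ℕ} {x : Fin n → ℝ} {c : ℝ} (h : ∀ i, |x i| ≤ c) :
    |∑ i, x i| ≤ n * c := by
  refine (Finset.abs_sum_le_sum_abs _ _).trans ?_
  refine (Finset.sum_le_card_nsmul _ _ _ fun i _ => h i).trans ?_
  simp only [Finset.card_univ, Fintype.card_fin, nsmul_eq_mul, le_refl]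

/-- the square root of the expansion -/
theorem sqrt_expand {W X k c e δ : ℝ} (hδ : 0 ≤ δ) (hc : 1 ≤ c) (he : 0 ≤ e)
    (hcδ : c * δ ≤ 1 / 2) (hX : |X| ≤ c * δ) (hk : |k| ≤ c * δ) (hXk : |X - k| ≤ c * δ ^ 2)
    (hW : W ≤ 1 + X + e * δ ^ 3) :
    Real.sqrt W ≤ 1 + X / 2 - k ^ 2 / 8 + (e + c ^ 3) * δ ^ 3 := by
  have hX1 := abs_le.1 hX
  have hk1 := abs_le.1 hk
  have hX2 := abs_le.1 hXk
  have hk2 : k ^ 2 ≤ 1 / 4 := by
    have h1 : |k| ≤ 1 / 2 := hk.trans hcδ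
    nlinarith [abs_nonneg k, sq_abs k]
  have hT : 1 / 2 ≤ 1 + X / 2 - k ^ 2 / 8 := by linarith
  have hD : 0 ≤ (e + c ^ 3) * δ ^ 3 := by positivity
  have hδ3 : 0 ≤ δ ^ 3 := by positivity
  refine Real.sqrt_le_iff.2 ⟨by linarith, hW.trans ?_⟩
  have h1 : |(X - k) * (X + k)| ≤ (c * δ ^ 2) * (2 * (c * δ)) := by
    rw [abs_mul]
    refine mul_le_mul hXk ((abs_add_le _ _).trans (by linarith)) (abs_nonneg _) (by positivity)
  have h2 : |X * k ^ 2| ≤ (c * δ) * (c * δ) ^ 2 := by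
    rw [abs_mul, abs_pow]
    exact mul_le_mul hX (pow_le_pow_left₀ (abs_nonneg _) hk 2) (by positivity) (by positivity)
  have h3 : (c * δ ^ 2) * (2 * (c * δ)) = 2 * (c ^ 2 * δ ^ 3) := by ring
  have h4 : (c * δ) * (c * δ) ^ 2 = c ^ 3 * δ ^ 3 := by ring
  have h5 : c ^ 2 * δ ^ 3 ≤ c ^ 3 * δ ^ 3 := by
    refine mul_le_mul_of_nonneg_right ?_ hδ3
    nlinarith [sq_nonneg c]
  rw [h3] at h1
  rw [h4] at h2
  have h6 := abs_le.1 h1
  have h7 := abs_le.1 h2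
  have h8 : 1 * ((e + c ^ 3) * δ ^ 3) ≤ 2 * (1 + X / 2 - k ^ 2 / 8) * ((e + c ^ 3) * δ ^ 3) :=
    mul_le_mul_of_nonneg_right (by linarith) hD
  have h9 : (1 + X / 2 - k ^ 2 / 8 + (e + c ^ 3) * δ ^ 3) ^ 2 =
      1 + X + ((X - k) * (X + k)) / 4 - X * k ^ 2 / 8 + k ^ 4 / 64 +
        2 * (1 + X / 2 - k ^ 2 / 8) * ((e + c ^ 3) * δ ^ 3) + ((e + c ^ 3) * δ ^ 3) ^ 2 := by ring
  rw [h9]
  have h10 : 0 ≤ k ^ 4 := by positivity
  have h11 : 0 ≤ ((e + c ^ 3) * δ ^ 3) ^ 2 := sq_nonneg _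
  have h12 : 0 ≤ c ^ 3 * δ ^ 3 := by positivity
  linarith

variable {n : ℕ} {M : Type} [TopologicalSpace M] [ChartedSpace (EV n) M]
  [IsManifold 𝓘(ℝ, EV n) ∞ M] {g : RMetric (EV n) M} [NeZero n] [CompactSpace M] [T2Space M]
  [Nonempty (Fr g)]

/-- bounds of the curvature of `g` and of its first derivatives -/
structure RBd (g : RMetric (EV n) M) (R : ℝ) : Prop where
  one_le : 1 ≤ R
  R0 : ∀ (p : Fr g) i j k l, |Rf g p i j k l| ≤ R
  R1 : ∀ (p : Fr g) m i j k l, |dH m (fun q => Rf g q i j k l) p| ≤ R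

/-- there are such bounds -/
theorem exists_RBd (g : RMetric (EV n) M) [Nonempty (Fr g)] : ∃ R, RBd g R := by
  have h0 : ∀ F : Fr g → ℝ, SmF F → ∃ c, ∀ p, |F p| ≤ c := by
    intro F hF
    obtain ⟨c, hc⟩ := (isCompact_range hF.continuous).isBounded.exists_norm_le
    exact ⟨c, fun p => hc _ (mem_range_self p)⟩
  have h1 : ∀ q : Fin n × Fin n × Fin n × Fin n, ∃ c, ∀ p : Fr g,
      |Rf g p q.1 q.2.1 q.2.2.1 q.2.2.2| ≤ c := fun q => h0 _ (H743.smF_Rf _ _ _ _)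
  have h2 : ∀ q : Fin n × Fin n × Fin n × Fin n × Fin n, ∃ c, ∀ p : Fr g,
      |dH q.1 (fun x => Rf g x q.2.1 q.2.2.1 q.2.2.2.1 q.2.2.2.2) p| ≤ c := fun q =>
    h0 _ (smF_dH _ (H743.smF_Rf _ _ _ _))
  choose c1 hc1 using h1
  choose c2 hc2 using h2
  refine ⟨1 + ∑ q, |c1 q| + ∑ q, |c2 q|, ?_, ?_, ?_⟩
  · have e1 : 0 ≤ ∑ q, |c1 q| := Finset.sum_nonneg fun _ _ => abs_nonneg _
    have e2 : 0 ≤ ∑ q, |c2 q| := Finset.sum_nonneg fun _ _ => abs_nonneg _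
    linarith
  · intro p i j k l
    have e1 : |c1 (i, j, k, l)| ≤ ∑ q, |c1 q| :=
      Finset.single_le_sum (f := fun q => |c1 q|) (fun _ _ => abs_nonneg _) (Finset.mem_univ _)
    have e2 : 0 ≤ ∑ q, |c2 q| := Finset.sum_nonneg fun _ _ => abs_nonneg _
    have e3 := hc1 (i, j, k, l) p
    have e4 := le_abs_self (c1 (i, j, k, l))
    simp only at e3
    linarith
  · intro p m i j k l
    have e1 : |c2 (m, i, j, k, l)| ≤ ∑ q, |c2 q| :=
      Finset.single_le_sum (f := fun q => |c2 q|) (fun _ _ => abs_nonneg _) (Finset.mem_univ _)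
    have e2 : 0 ≤ ∑ q, |c1 q| := Finset.sum_nonneg fun _ _ => abs_nonneg _
    have e3 := hc2 (m, i, j, k, l) p
    have e4 := le_abs_self (c2 (m, i, j, k, l))
    simp only at e3
    linarith

theorem abs_fK_le {R : ℝ} (hR : RBd g R) {v : Fin n → ℝ} {δ : ℝ} (hδ : 0 ≤ δ)
    (hv : ∀ i, |v i| ≤ δ) (p : Fr g) (i j : Fin n) : |fK v p i j| ≤ n ^ 2 * δ ^ 2 * R := by
  have h1 : ∀ k l, |v k * v l * Rf g p i k l j| ≤ δ * δ * R := by
    intro k l
    rw [abs_mul, abs_mul]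
    exact mul_le_mul (mul_le_mul (hv k) (hv l) (abs_nonneg _) hδ) (hR.R0 p _ _ _ _)
      (abs_nonneg _) (by positivity)
  have h2 : |fK v p i j| ≤ n * (n * (δ * δ * R)) := abs_sum_le fun k => abs_sum_le fun l => h1 k l
  refine h2.trans (le_of_eq ?_)
  ring

theorem abs_fK_sub_le {R : ℝ} (hR : RBd g R) {v : Fin n → ℝ} {δ : ℝ} (hδ : 0 ≤ δ)
    (hv : ∀ i, |v i| ≤ δ) (p : Fr g) (i j : Fin n) {s : ℝ} (hs : s ∈ Icc (0 : ℝ) 1) :
    |fK v (hfl g v s p) i j - fK v (hfl g v 0 p) i j| ≤ n ^ 3 * δ ^ 3 * R := by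
  have h1 : ∀ s, HasDerivAt (fun s => fK v (hfl g v s p) i j)
      (∑ k, ∑ l, v k * v l * ∑ m, v m * dH m (fun q => Rf g q i k l j) (hfl g v s p)) s := by
    intro s
    refine HasDerivAt.fun_sum fun k _ => HasDerivAt.fun_sum fun l _ => ?_
    exact (hasDerivAt_hfl v (H743.smF_Rf i k l j) p s).const_mul _
  have h2 : ∀ s ∈ Icc (0 : ℝ) 1,
      |∑ k, ∑ l, v k * v l * ∑ m, v m * dH m (fun q => Rf g q i k l j) (hfl g v s p)| ≤
        n ^ 3 * δ ^ 3 * R := by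
    intro s _
    have h3 : ∀ k l, |v k * v l * ∑ m, v m * dH m (fun q => Rf g q i k l j) (hfl g v s p)| ≤
        δ * δ * (n * (δ * R)) := by
      intro k l
      rw [abs_mul, abs_mul]
      refine mul_le_mul (mul_le_mul (hv k) (hv l) (abs_nonneg _) hδ) ?_ (abs_nonneg _)
        (by positivity)
      refine abs_sum_le fun m => ?_
      rw [abs_mul]
      exact mul_le_mul (hv m) (hR.R1 _ _ _ _ _ _) (abs_nonneg _) hδ
    refine (abs_sum_le fun k => abs_sum_le fun l => h3 k l).trans (le_of_eq ?_)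
    ring
  have hR0 := hR.one_le
  exact (taylor1 h1 h2 hs).trans (mul_le_of_le_one_right (by positivity) hs.2)

/-- the first order change of `k` along the geodesic of `y` -/
def lk (y : Fr g → Fin n → ℝ) (F : Fr g → ℝ) (p : Fr g) : ℝ := ∑ m, y p m * dH m F p

/-- the second order expansion of the square of the length -/
def XA (y : Fr g → Fin n → ℝ) (k : Fin n → Fin n → Fr g → ℝ) (p : Fr g) : ℝ :=
  k 0 0 p + lk y (k 0 0) p + 2 * ∑ j, dH 0 (fun q => y q j) p * k 0 j p +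
    ∑ i, dH 0 (fun q => y q i) p ^ 2 - fK (y p) p 0 0

/-- the bounds used by the expansion -/
structure YKBd (y : Fr g → Fin n → ℝ) (k : Fin n → Fin n → Fr g → ℝ) (δ : ℝ) : Prop where
  δ0 : 0 ≤ δ
  δ1 : δ ≤ 1
  smy : SmF y
  y0 : ∀ p, y p 0 = 0
  smk : ∀ i j, SmF (k i j)
  symk : ∀ i j p, k i j p = k j i p
  by0 : ∀ p i, |y p i| ≤ δ
  by1 : ∀ p i, |dH 0 (fun q => y q i) p| ≤ δ
  bk0 : ∀ p i j, |k i j p| ≤ δ
  bk1 : ∀ p m i j, |dH m (k i j) p| ≤ δ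
  bk2 : ∀ p l m i j, |dH l (dH m (k i j)) p| ≤ δ

theorem smF_comp_y {y : Fr g → Fin n → ℝ} (hy : SmF y) (i : Fin n) : SmF (fun q => y q i) :=
  hy.clm (ContinuousLinearMap.proj (R := ℝ) (φ := fun _ : Fin n => ℝ) i)

theorem dH_const (m : Fin n) {F : Fr g → ℝ} (hF : SmF F) (h : ∀ p, F p = 0) (p : Fr g) :
    dH m F p = 0 := by
  have h1 := (isHorFlow_flow g (Pi.single m 1)).isFlow.hasDerivAt hF p 0
  have h2 : (fun r => F (CSys.flow (horVF g (Pi.single m 1)) r p)) = fun _ => (0 : ℝ) :=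
    funext fun r => h _
  rw [h2] at h1
  have h3 := h1.unique (hasDerivAt_const (0 : ℝ) (0 : ℝ))
  rw [CSys.flow_zero] at h3
  exact h3

/-- Taylor expansion of a function along the geodesic of `v` -/
theorem taylor_F {F : Fr g → ℝ} (hF : SmF F) {δ : ℝ} (hδ : 0 ≤ δ) {v : Fin n → ℝ}
    (hv : ∀ i, |v i| ≤ δ) (h2 : ∀ p l m, |dH l (dH m F) p| ≤ δ) (p : Fr g) :
    |F (hfl g v 1 p) - (F p + ∑ m, v m * dH m F p)| ≤ n ^ 2 * δ ^ 3 := by
  have h3 : ∀ s, HasDerivAt (fun s => F (hfl g v s p)) (∑ m, v m * dH m F (hfl g v s p)) s :=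
    fun s => hasDerivAt_hfl v hF p s
  have h4 : ∀ s, HasDerivAt (fun s => ∑ m, v m * dH m F (hfl g v s p))
      (∑ m, v m * ∑ l, v l * dH l (dH m F) (hfl g v s p)) s := fun s =>
    HasDerivAt.fun_sum fun m _ => (hasDerivAt_hfl v (smF_dH m hF) p s).const_mul _
  have h5 : ∀ s ∈ Icc (0 : ℝ) 1, |∑ m, v m * ∑ l, v l * dH l (dH m F) (hfl g v s p)| ≤
      n ^ 2 * δ ^ 3 := by
    intro s _
    refine (abs_sum_le (c := δ * (n * (δ * δ))) fun m => ?_).trans (le_of_eq (by ring))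
    rw [abs_mul]
    refine mul_le_mul (hv m) ?_ (abs_nonneg _) hδ
    refine abs_sum_le fun l => ?_
    rw [abs_mul]
    exact mul_le_mul (hv l) (h2 _ _ _) (abs_nonneg _) hδ
  have h6 := taylor2 h3 h4 h5 (⟨zero_le_one, le_refl _⟩ : (1 : ℝ) ∈ Icc (0 : ℝ) 1)
  simp only [hfl_zero, one_mul] at h6
  have h7 : F (hfl g v 1 p) - (F p + ∑ m, v m * dH m F p) =
      F (hfl g v 1 p) - F p - ∑ m, v m * dH m F p := by ring
  rw [h7]
  exact h6

/-- the constant of the expansion -/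
def cE (n : ℕ) (R : ℝ) : ℝ := 100 * (n + n ^ 2) * (10 * n ^ 6 * R ^ 2) ^ 3

/-- **the expansion of the square of the length** -/
theorem W2_expand {R δ : ℝ} (hR : RBd g R) {y : Fr g → Fin n → ℝ}
    {k : Fin n → Fin n → Fr g → ℝ} (h : YKBd y k δ) (hsm : n ^ 3 * δ ^ 2 * R ≤ 1 / 2)
    {p : Fr g} {A B : ℝ → Fin n → ℝ} (hJ : IsJS g (y p) p A B)
    (hA : ∀ i, A 0 i = if i = 0 then 1 else 0) (hB : ∀ i, B 0 i = dH 0 (fun q => y q i) p) :
    |∑ i, ∑ j, A 1 i * A 1 j * ((if i = j then 1 else 0) + k i j (hfl g (y p) 1 p)) -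
      (1 + XA y k p)| ≤ cE n R * δ ^ 3 := by
  have hn : (1 : ℝ) ≤ n := by exact_mod_cast Nat.one_le_iff_ne_zero.2 (NeZero.ne n)
  have hR1 := hR.one_le
  have hδ := h.δ0
  have hδ1 := h.δ1
  have hR2 : R ≤ R ^ 2 := by nlinarith
  have hn2 : (1 : ℝ) ≤ n ^ 2 := one_le_pow₀ hn
  have hR22 : (1 : ℝ) ≤ R ^ 2 := one_le_pow₀ hR1
  have hp : ∀ m ≤ 6, (n : ℝ) ^ m ≤ n ^ 6 := fun m hm => pow_le_pow_right₀ hn hm
  have hn6 : (1 : ℝ) ≤ n ^ 6 := one_le_pow₀ hn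
  have hnR : (1 : ℝ) ≤ n ^ 6 * R ^ 2 := by nlinarith
  set C : ℝ := 10 * n ^ 6 * R ^ 2 with hC
  have hC1 : 1 ≤ C := by rw [hC]; nlinarith
  have hd2 : δ ^ 2 ≤ δ := by nlinarith
  have hd2' : 0 ≤ δ ^ 2 := by positivity
  have hd3' : 0 ≤ δ ^ 3 := by positivity
  have hv := h.by0 p
  have hb0 : dH 0 (fun q => y q 0) p = 0 := dH_const 0 (smF_comp_y h.smy 0) h.y0 p
  -- the curvature term
  have hK : ∀ s ∈ Icc (0 : ℝ) 1, ∀ i j, |fK (y p) (hfl g (y p) s p) i j| ≤ n ^ 2 * δ ^ 2 * R :=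
    fun s _ i j => abs_fK_le hR hδ hv _ i j
  have hK' : ∀ s ∈ Icc (0 : ℝ) 1, ∀ i j,
      |fK (y p) (hfl g (y p) s p) i j - fK (y p) (hfl g (y p) 0 p) i j| ≤ n ^ 3 * δ ^ 3 * R :=
    fun s hs i j => abs_fK_sub_le hR hδ hv p i j hs
  have hm : ∀ i, |A 0 i| + |B 0 i| ≤ 2 := by
    intro i
    rw [hA, hB]
    have h1 : |if i = 0 then (1 : ℝ) else 0| ≤ 1 := by split_ifs <;> simp
    linarith [h.by1 p i]
  have hb : ∀ i, |B 0 i| ≤ δ := fun i => by rw [hB]; exact h.by1 p i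
  have hsmall : n * (n ^ 2 * δ ^ 2 * R) ≤ 1 / 2 := by
    refine le_trans (le_of_eq ?_) hsm
    ring
  have hT := jac_taylor (K := fun s i j => fK (y p) (hfl g (y p) s p) i j) hJ.dA hJ.dB hK hK'
    hm hb hsmall
  simp only [hfl_zero, hA, hB] at hT
  have hn3 : ∀ a b : ℕ, a ≤ 6 → b ≤ 2 → (n : ℝ) ^ a * R ^ b ≤ n ^ 6 * R ^ 2 := fun a b ha hb =>
    mul_le_mul (hp a ha) (pow_le_pow_right₀ hR1 hb) (by positivity) (by positivity)
  have key := norm_expand (n := n) (a := fun i => if i = 0 then 1 else 0)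
    (b := fun i => dH 0 (fun q => y q i) p) (q := fun i => - (1 / 2) * fK (y p) p 0 i)
    (A := A 1) (k := fun i j => k i j p) (l := fun i j => lk y (k i j) p)
    (k' := fun i j => k i j (hfl g (y p) 1 p)) (C := C) (δ := δ) hC1 hδ hδ1
    (fun i => by
      have h1 : |if i = 0 then (1 : ℝ) else 0| ≤ 1 := by split_ifs <;> simp
      exact h1.trans hC1)
    (fun i => (h.by1 p i).trans (le_mul_of_one_le_left hδ hC1))
    (fun i => by
      rw [abs_mul]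
      have h1 := abs_fK_le hR hδ hv p 0 i
      have h2 : |(-(1 / 2) : ℝ)| ≤ 1 := by norm_num [abs_le]
      have h3 : n ^ 2 * δ ^ 2 * R ≤ C * δ ^ 2 := by
        have h4 := hn3 2 1 (by norm_num) (by norm_num)
        rw [hC]
        nlinarith [mul_le_mul_of_nonneg_right h4 hd2']
      calc |(-(1 / 2) : ℝ)| * |fK (y p) p 0 i| ≤ 1 * (n ^ 2 * δ ^ 2 * R) :=
            mul_le_mul h2 h1 (abs_nonneg _) (by norm_num)
        _ ≤ C * δ ^ 2 := by linarith)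
    (fun i => by
      have h1 := hT i
      have h2 : (∑ j, fK (y p) p j i * if j = 0 then (1 : ℝ) else 0) = fK (y p) p 0 i := by
        simp
      rw [h2] at h1
      have h3 : A 1 i - ((if i = 0 then (1 : ℝ) else 0) + dH 0 (fun q => y q i) p +
          -(1 / 2) * fK (y p) p 0 i) = A 1 i - ((if i = 0 then (1 : ℝ) else 0) +
          dH 0 (fun q => y q i) p - 1 / 2 * fK (y p) p 0 i) := by ring
      rw [h3]
      refine h1.trans ?_
      have e1 : n * (n ^ 3 * δ ^ 3 * R * (2 * 2) + n ^ 2 * δ ^ 2 * R *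
          (δ + n * (n ^ 2 * δ ^ 2 * R * (2 * 2)))) =
          4 * (n ^ 4 * R ^ 1 * δ ^ 3) + n ^ 3 * R ^ 1 * δ ^ 3 + 4 * (n ^ 6 * R ^ 2 * δ ^ 3) * δ := by
        ring
      rw [e1]
      have h4 := mul_le_mul_of_nonneg_right (hn3 4 1 (by norm_num) (by norm_num)) hd3'
      have h5 := mul_le_mul_of_nonneg_right (hn3 3 1 (by norm_num) (by norm_num)) hd3'
      have h6 : 0 ≤ n ^ 6 * R ^ 2 * δ ^ 3 := by positivity
      have h7 : n ^ 6 * R ^ 2 * δ ^ 3 * δ ≤ n ^ 6 * R ^ 2 * δ ^ 3 :=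
        mul_le_of_le_one_right h6 hδ1
      have h8 : C * δ ^ 3 = 10 * (n ^ 6 * R ^ 2 * δ ^ 3) := by rw [hC]; ring
      rw [h8]
      linarith)
    (fun i j => (h.bk0 p i j).trans (le_mul_of_one_le_left hδ hC1))
    (fun i j => by
      have h1 : |lk y (k i j) p| ≤ n * (δ * δ) := by
        refine abs_sum_le fun m => ?_
        rw [abs_mul]
        exact mul_le_mul (hv m) (h.bk1 p m i j) (abs_nonneg _) hδ
      refine h1.trans ?_
      have h4 := hn3 1 0 (by norm_num) (by norm_num)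
      rw [hC]
      nlinarith [mul_le_mul_of_nonneg_right h4 hd2'])
    (fun i j => by
      refine (taylor_F (h.smk i j) hδ hv (fun q l m => h.bk2 q l m i j) p).trans ?_
      have h4 := hn3 2 0 (by norm_num) (by norm_num)
      rw [hC]
      nlinarith [mul_le_mul_of_nonneg_right h4 hd3'])
  refine le_trans (le_of_eq ?_) key
  congr 2
  have e1 : ∑ i : Fin n, ((if i = 0 then (1 : ℝ) else 0) ^ 2 +
      2 * (if i = 0 then 1 else 0) * dH 0 (fun q => y q i) p + dH 0 (fun q => y q i) p ^ 2 +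
      2 * (if i = 0 then 1 else 0) * (-(1 / 2) * fK (y p) p 0 i)) =
      1 + ∑ i, dH 0 (fun q => y q i) p ^ 2 - fK (y p) p 0 0 := by
    simp only [Finset.sum_add_distrib, ite_pow, one_pow, mul_ite, mul_one, mul_zero, ite_mul,
      zero_mul, Finset.sum_ite_eq', Finset.mem_univ, if_true, hb0]
    norm_num
    ring
  have e2 : ∑ i : Fin n, ∑ j : Fin n, ((if i = 0 then (1 : ℝ) else 0) *
      (if j = 0 then 1 else 0) * (k i j p + lk y (k i j) p) +
      ((if i = 0 then 1 else 0) * dH 0 (fun q => y q j) p + dH 0 (fun q => y q i) p *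
        (if j = 0 then 1 else 0)) * k i j p) =
      k 0 0 p + lk y (k 0 0) p + 2 * ∑ j, dH 0 (fun q => y q j) p * k 0 j p := by
    simp only [add_mul, Finset.sum_add_distrib, mul_ite, mul_one, mul_zero, ite_mul, one_mul,
      zero_mul, Finset.sum_ite_eq', Finset.mem_univ, if_true, Finset.sum_ite_irrel,
      Finset.sum_const_zero]
    simp only [h.symk _ 0 p]
    ring
  rw [e1, e2]
  unfold XA
  ring

end Vale.Agent.P207.H248
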