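import Vale.Agent.P207.H248.B2A
import Vale.Agent.P207.H992.B2

/-!
# P207, block B2: `ExpA` (helper248)
-/

open scoped Manifold ContDiff ENNReal Topology
open Bundle MeasureTheory Set Filter Topology

noncomputable section

set_option maxSynthPendingDepth 3
set_option linter.unusedSectionVars false

namespace Vale.Agent.P207.H248

open Vale.Agent.P255 (RMetric Npc)
open Vale.Agent.P207.Q
open Vale.Agent.P207.H442 (frCalc ev)
open Vale.Agent.P207.Kat (Dat GAdm)

variable {n : ℕ} {M : Type} [TopologicalSpace M] [ChartedSpace (EV n) M]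
  [IsManifold 𝓘(ℝ, EV n) ∞ M] {g : RMetric (EV n) M} [NeZero n] [CompactSpace M] [T2Space M]
  [Nonempty (Fr g)] [MeasurableSpace M] [BorelSpace M]

/-- **(EXP-A)** -/
theorem expA (D : Dat g) (h₀ : Npc (mt g)) : H992.ExpA D := by
  obtain ⟨R, hR⟩ := exists_RBd g
  have hR1 := hR.one_le
  have hW0 : 0 ≤ cW n R := by
    unfold cW
    exact add_nonneg cE_nonneg (by positivity)
  refine ⟨12 * n ^ 2 * R + cW n R + 1, by positivity, ?_⟩
  intro g' h' k y hk hy hsm
  set δ := D.cT 2 k + D.cV 1 y with hδ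
  have hδ0 : 0 ≤ δ := add_nonneg (cT_nonneg D 2 k) (cV_nonneg D 1 y)
  have hpos1 : 0 ≤ 12 * n ^ 2 * R := by positivity
  have hmono : ∀ c : ℝ, c ≤ 12 * n ^ 2 * R + cW n R + 1 → c * δ ≤ 1 := fun c hc =>
    (mul_le_mul_of_nonneg_right hc hδ0).trans hsm
  have hδ1 : δ ≤ 1 := by
    have := hmono 1 (by linarith)
    linarith
  have hB := ykBd D hy (fun i j => symm_of hk i j) (le_refl _) hδ1
  rw [← hδ] at hB
  obtain ⟨Θ, hΘ⟩ := exists_testMap D.hφ h₀ h' hR hB (equi_of_gAdm hy) (isK_of hk)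
    (hmono _ (by linarith))
  refine ⟨Θ, fun f => ?_⟩
  have hev : ev f (k 0 0) = H992.KK g' f 0 0 := by
    rw [eq_kS hk]
    exact H992.ev_kS 0 0 f
  have h1 := hΘ f
  rw [XA_eq y k f, hev] at h1
  have h2 : cW n R * δ ^ 3 ≤ (12 * n ^ 2 * R + cW n R + 1) * δ ^ 3 :=
    mul_le_mul_of_nonneg_right (by linarith) (by positivity)
  linarith

end Vale.Agent.P207.H248
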