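import Vale.Agent.P207.Q.FrSys2

/-!
# P207, second order expansion: the horizontal flows depend smoothly on the direction

`hor_plot`: if `u` is a plot of the frame bundle and `ξ`, `s` are smooth, then
`z ↦ Φ^{ξ z}_{s z} (u z)` is a plot. (helper248)
-/

open scoped Manifold ContDiff ENNReal Topology
open Bundle MeasureTheory Set Filter Topology

noncomputable section

set_option maxSynthPendingDepth 3
set_option linter.unusedSectionVars false

namespace Vale.Agent.P207.H248

open Vale.Agent.P255 (RMetric coefIn Gam Riem IsGeo Metric Npc ExpSys toMetric geo expg cc trans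
  IsGeodesic coefL chris chrisB IsMetricOn covD)
open Vale.Agent.P207.Q Vale.Agent.P207.Q.Fl

variable {n : ℕ} {M : Type} [TopologicalSpace M] [ChartedSpace (EV n) M]
  [IsManifold 𝓘(ℝ, EV n) ∞ M] (g : RMetric (EV n) M) [Nonempty (Fr g)] [NeZero n]

/-- the parameter space -/
abbrev Par (n : ℕ) (R : ℝ) : Type := Metric.closedBall (0 : Fin n → ℝ) R

/-- the horizontal fields are smooth in the direction and the state -/
theorem contDiffAt_hF' {G : EV n → EV n →L[ℝ] EV n →L[ℝ] ℝ} {U : Set (EV n)} (h : IsMetricOn G U)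
    {z : St (Fin n) n × (Fin n → ℝ)} (hz : z.1.1 ∈ U) :
    ContDiffAt ℝ ∞ (fun z : St (Fin n) n × (Fin n → ℝ) => hF G z.2 z.1) z := by
  have h0 : ContDiffAt ℝ ∞ (fun z : St (Fin n) n × (Fin n → ℝ) => chrisB G z.1.1) z :=
    (h.contDiffAt_chrisB hz).comp z (contDiffAt_fst.fst)
  have hi : ∀ i, ContDiffAt ℝ ∞ (fun z : St (Fin n) n × (Fin n → ℝ) => z.1.2 i) z := fun i =>
    ((ContinuousLinearMap.proj (R := ℝ) (φ := fun _ : Fin n => EV n) i).contDiff.comp
      (contDiff_snd.comp contDiff_fst)).contDiffAt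
  have hξ : ∀ i, ContDiffAt ℝ ∞ (fun z : St (Fin n) n × (Fin n → ℝ) => z.2 i) z := fun i =>
    ((ContinuousLinearMap.proj (R := ℝ) (φ := fun _ : Fin n => ℝ) i).contDiff.comp
      contDiff_snd).contDiffAt
  have h1 : ContDiffAt ℝ ∞ (fun z : St (Fin n) n × (Fin n → ℝ) => ∑ i, z.2 i • z.1.2 i) z :=
    ContDiffAt.sum fun i _ => (hξ i).smul (hi i)
  refine h1.prodMk ?_
  rw [contDiffAt_pi]
  intro j
  have h2 : (fun z : St (Fin n) n × (Fin n → ℝ) =>
      - chris G z.1.1 (∑ i, z.2 i • z.1.2 i) (z.1.2 j)) =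
      fun z : St (Fin n) n × (Fin n → ℝ) => - chrisB G z.1.1 (∑ i, z.2 i • z.1.2 i) (z.1.2 j) := by
    funext z
    rw [P255.chrisB_apply]
  rw [h2]
  exact ((h0.clm_apply h1).clm_apply (hi j)).neg

open Classical in
/-- the frame bundle times a ball of directions -/
def parSys (R : ℝ) (hR : 0 ≤ R) : CSys M (St (Fin n) n × (Fin n → ℝ)) (Fr g × Par n R) where
  S a := {f | f.1 ∈ (frSys g).S a}
  O a := (frSys g).O a ×ˢ univ
  c a f := ((frSys g).c a f.1, f.2.1)
  inv a y := ((frSys g).inv a y.1, if h : y.2 ∈ Metric.closedBall (0 : Fin n → ℝ) R then ⟨y.2, h⟩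
    else ⟨0, by simpa using hR⟩)
  τ a b y := ((frSys g).τ a b y.1, y.2)
  W a b := {y | y.1 ∈ (frSys g).W a b}
  isOpen_S a := ((frSys g).isOpen_S a).preimage continuous_fst
  isOpen_O a := ((frSys g).isOpen_O a).prod isOpen_univ
  cover f := (frSys g).cover f.1
  mem_O a f h := ⟨(frSys g).mem_O a f.1 h, mem_univ _⟩
  left a f h := by
    refine Prod.ext ((frSys g).left a f.1 h) ?_
    simp only
    rw [dif_pos f.2.2]
  cont a := by
    refine ContinuousOn.prodMk ?_ ?_
    · exact ((frSys g).cont a).comp continuousOn_fst fun f hf => hf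
    · exact (continuous_subtype_val.comp continuous_snd).continuousOn
  contI a := by
    have him : (fun f : Fr g × Par n R => ((frSys g).c a f.1, (f.2.1 : Fin n → ℝ))) ''
        {f | f.1 ∈ (frSys g).S a} = ((frSys g).c a '' (frSys g).S a) ×ˢ
          Metric.closedBall (0 : Fin n → ℝ) R := by
      ext y
      constructor
      · rintro ⟨f, hf, rfl⟩
        exact ⟨⟨f.1, hf, rfl⟩, f.2.2⟩
      · rintro ⟨⟨f, hf, h1⟩, h2⟩
        exact ⟨(f, ⟨y.2, h2⟩), hf, Prod.ext h1 rfl⟩
    change ContinuousOn _ ((fun f : Fr g × Par n R => ((frSys g).c a f.1, (f.2.1 : Fin n → ℝ))) ''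
        {f | f.1 ∈ (frSys g).S a})
    rw [him]
    refine ContinuousOn.prodMk ?_ ?_
    · exact ((frSys g).contI a).comp continuousOn_fst fun y hy => hy.1
    · rw [continuousOn_iff_continuous_domRestrict]
      refine Continuous.congr (f := fun y : ((((frSys g).c a '' (frSys g).S a) ×ˢ
          Metric.closedBall (0 : Fin n → ℝ) R : Set _)) => (⟨y.1.2, y.2.2⟩ : Par n R)) ?_ ?_
      · exact Continuous.subtype_mk (continuous_snd.comp continuous_subtype_val) _
      · intro y
        simp only [Set.domRestrict_apply]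
        rw [dif_pos y.2.2]
  isOpen_W a b := ((frSys g).isOpen_W a b).preimage continuous_fst
  smooth_τ a b := by
    refine ContDiffOn.prodMk ?_ contDiff_snd.contDiffOn
    exact ((frSys g).smooth_τ a b).comp contDiffOn_fst fun y hy => hy
  mem_W a b f ha hb := (frSys g).mem_W a b f.1 ha hb
  τ_c a b f ha hb := Prod.ext ((frSys g).τ_c a b f.1 ha hb) rfl

/-- the horizontal field with the direction as a parameter -/
def parVF (R : ℝ) (hR : 0 ≤ R) : (parSys g R hR).VF where
  f a z := (hF ((mt g).coef a) z.2 z.1, 0)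
  smooth a := by
    refine ContDiffOn.prodMk ?_ contDiffOn_const
    intro z hz
    exact (contDiffAt_hF' ((mt g).isMetricOn a) hz.1.1).contDiffWithinAt
  compat a b f ha hb := by
    have h1 : DifferentiableAt ℝ ((frSys g).τ a b) ((frSys g).c a f.1) :=
      (((frSys g).smooth_τ a b).contDiffAt (((frSys g).isOpen_W a b).mem_nhds
        ((frSys g).mem_W a b f.1 ha hb))).differentiableAt (by simp)
    have h1' : HasFDerivAt (fun y : St (Fin n) n × (Fin n → ℝ) => (frSys g).τ a b y.1)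
        ((fderiv ℝ ((frSys g).τ a b) ((frSys g).c a f.1)).comp
          (ContinuousLinearMap.fst ℝ (St (Fin n) n) (Fin n → ℝ)))
        ((frSys g).c a f.1, (f.2.1 : Fin n → ℝ)) :=
      HasFDerivAt.comp (g := (frSys g).τ a b) (f := Prod.fst)
        ((frSys g).c a f.1, (f.2.1 : Fin n → ℝ)) h1.hasFDerivAt hasFDerivAt_fst
    have h2 : HasFDerivAt (fun y : St (Fin n) n × (Fin n → ℝ) => ((frSys g).τ a b y.1, y.2))
        (((fderiv ℝ ((frSys g).τ a b) ((frSys g).c a f.1)).comp
          (ContinuousLinearMap.fst ℝ (St (Fin n) n) (Fin n → ℝ))).prod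
          (ContinuousLinearMap.snd ℝ (St (Fin n) n) (Fin n → ℝ)))
        (((frSys g).c a f.1, (f.2.1 : Fin n → ℝ))) := h1'.prodMk hasFDerivAt_snd
    have h3 := (horVF g (f.2.1 : Fin n → ℝ)).compat a b f.1 ha hb
    change fderiv ℝ (fun y : St (Fin n) n × (Fin n → ℝ) => ((frSys g).τ a b y.1, y.2))
      ((frSys g).c a f.1, (f.2.1 : Fin n → ℝ)) _ = _
    rw [h2.fderiv]
    exact Prod.ext h3 rfl
  pres a y r s hr hs h0 h := by
    have hI : (parSys g R hR).c a '' (parSys g R hR).S a = ((frSys g).c a '' (frSys g).S a) ×ˢ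
          Metric.closedBall (0 : Fin n → ℝ) R := by
      ext y
      constructor
      · rintro ⟨f, hf, rfl⟩
        exact ⟨⟨f.1, hf, rfl⟩, f.2.2⟩
      · rintro ⟨⟨f, hf, h1⟩, h2⟩
        exact ⟨(f, ⟨y.2, h2⟩), hf, Prod.ext h1 rfl⟩
    rw [hI] at h0 ⊢
    have hd : ∀ t ∈ Ioo r s, HasDerivAt (fun t => (y t).2) 0 t := fun t ht => (h t ht).2.snd
    have hc : ∀ t ∈ Ioo r s, (y t).2 = (y 0).2 := by
      intro t ht
      have h1 : DifferentiableOn ℝ (fun t => (y t).2) (Ioo r s) :=
        fun t ht => (hd t ht).differentiableAt.differentiableWithinAt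
      exact isOpen_Ioo.is_const_of_deriv_eq_zero isPreconnected_Ioo h1
        (fun t ht => (hd t ht).deriv) ht (y := 0) ⟨hr, hs⟩
    intro t ht
    refine ⟨?_, ?_⟩
    · refine (horVF g (y 0).2).pres a (fun t => (y t).1) r s hr hs h0.1 (fun t ht => ?_) t ht
      refine ⟨(h t ht).1.1, ?_⟩
      have h2 := (h t ht).2.fst
      simp only [hc t ht] at h2
      exact h2
    · rw [hc t ht]
      exact h0.2

variable [CompactSpace M] [T2Space M]

theorem flow_par (R : ℝ) (hR : 0 ≤ R) (ξ : Par n R) (t : ℝ) (f : Fr g) :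
    CSys.flow (parVF g R hR) t (f, ξ) = (CSys.flow (horVF g ξ.1) t f, ξ) := by
  have h1 : CSys.IsInt (parVF g R hR) (fun t => (CSys.flow (horVF g ξ.1) t f, ξ)) univ := by
    intro t _
    obtain ⟨h2, h3⟩ := CSys.isInt_flow (horVF g ξ.1) f t (mem_univ t)
    refine ⟨h2.prodMk continuousAt_const, fun i hi => ?_⟩
    exact (h3 i hi).prodMk (hasDerivAt_const t (ξ.1 : Fin n → ℝ))
  have h4 := CSys.eq_flow_univ (parVF g R hR) h1 t
  simp only [CSys.flow_zero] at h4
  exact h4.symm

/-- plots of the product -/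
theorem at_par (R : ℝ) (hR : 0 ≤ R) {E : Type} [NormedAddCommGroup E] [NormedSpace ℝ E]
    [FiniteDimensional ℝ E] {u : E → Fr g} {ξ : E → Par n R} {x : E}
    (hu : (frSys g).dif.At u x) (hξ : Sm (fun z => ((ξ z).1 : Fin n → ℝ)) x) :
    (parSys g R hR).dif.At (fun z => (u z, ξ z)) x := by
  filter_upwards [hu, hξ] with y h1 h2
  refine ⟨h1.1.prodMk ?_, fun i hi => ?_⟩
  · exact (Topology.IsInducing.subtypeVal.continuousAt_iff).2 h2.continuousAt
  · exact (h1.2 i hi).prodMk h2

/-- **the horizontal flows are smooth in time, direction and frame** -/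
theorem hor_plot {E : Type} [NormedAddCommGroup E] [NormedSpace ℝ E]
    [FiniteDimensional ℝ E] {u : E → Fr g} {ξ : E → Fin n → ℝ} {s : E → ℝ} {x : E}
    (hu : (frSys g).dif.At u x) (hξ : Sm ξ x) (hs : Sm s x) :
    (frSys g).dif.At (fun z => CSys.flow (horVF g (ξ z)) (s z) (u z)) x := by
  classical
  set R := ‖ξ x‖ + 1 with hRd
  have hR : 0 ≤ R := by positivity
  have hev : ∀ᶠ z in 𝓝 x, ξ z ∈ Metric.closedBall (0 : Fin n → ℝ) R := by
    have h1 : ContinuousAt (fun z => ‖ξ z‖) x := hξ.continuousAt.norm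
    filter_upwards [h1.eventually (gt_mem_nhds (show ‖ξ x‖ < R by simp [hRd]))] with z hz
    simpa using hz.le
  let ξ' : E → Par n R := fun z => if h : ξ z ∈ Metric.closedBall (0 : Fin n → ℝ) R then
    ⟨ξ z, h⟩ else ⟨0, by simpa using hR⟩
  have h1 : Sm (fun z => ((ξ' z).1 : Fin n → ℝ)) x := by
    refine hξ.congr ?_
    filter_upwards [hev] with z hz
    simp only [ξ', dif_pos hz]
  have h2 := at_par g R hR hu h1
  have h3 : (parSys g R hR).dif.At (fun z => CSys.flow (parVF g R hR) (s z) (u z, ξ' z)) x :=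
    CSys.map_flow (parVF g R hR) (u := fun z => (s z, (u z, ξ' z))) ⟨hs, h2⟩
  have h4 : (frSys g).dif.At (fun z => (CSys.flow (parVF g R hR) (s z) (u z, ξ' z)).1) x := by
    filter_upwards [h3] with y hy
    refine ⟨hy.1.fst, fun i hi => ?_⟩
    exact (hy.2 i hi).fst
  refine (frSys g).dif.congr h4 ?_
  filter_upwards [hev] with z hz
  rw [flow_par]
  simp only [ξ', dif_pos hz]

end Vale.Agent.P207.H248
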