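import Vale.Agent.P207.H118.EDefs

/-!
# P207: the growth of the unstable Jacobi fields

`IsJac g γ J` (`Vale.Agent.P255.FinalDefs`) : `J` is a Jacobi field along `γ`.
-/

open scoped Manifold ContDiff ENNReal
open Bundle MeasureTheory Set Filter

noncomputable section

namespace Vale.Agent.P207F

open Vale.Agent.P255 (RMetric innerAt coefIn Gam Riem IsGeo IsJac)

section

variable {E : Type} [NormedAddCommGroup E] [NormedSpace ℝ E] {M : Type} [TopologicalSpace M]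
  [ChartedSpace E M] [IsManifold 𝓘(ℝ, E) ∞ M]

/-- The velocity of the curve `γ` at time `t`. -/
def velo (γ : ℝ → M) (t : ℝ) : TangentSpace 𝓘(ℝ, E) (γ t) :=
  mfderiv 𝓘(ℝ, ℝ) 𝓘(ℝ, E) γ t (1 : ℝ)

/-- `γ` is a geodesic of unit speed. -/
def IsUnitGeo (g : RMetric E M) (γ : ℝ → M) : Prop :=
  IsGeo g γ ∧ ∀ t, innerAt g (γ t) (velo γ t) (velo γ t) = 1

/-- `J` is an unstable Jacobi field along `γ`: a Jacobi field orthogonal to `γ` which is bounded
on `(-∞, 0]`. -/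
def IsUnst (g : RMetric E M) (γ : ℝ → M) (J : ∀ t, TangentSpace 𝓘(ℝ, E) (γ t)) : Prop :=
  IsJac g γ J ∧ (∀ t, innerAt g (γ t) (J t) (velo γ t) = 0) ∧
    ∃ C : ℝ, ∀ t ≤ 0, innerAt g (γ t) (J t) (J t) ≤ C

/-- The length of `J` at time `t`. -/
def len (g : RMetric E M) (γ : ℝ → M) (J : ∀ t, TangentSpace 𝓘(ℝ, E) (γ t)) (t : ℝ) : ℝ :=
  Real.sqrt (innerAt g (γ t) (J t) (J t))

/-- All unstable Jacobi fields along all geodesics of unit speed grow at least like `e^{at}` and at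
most like `e^{bt}`, up to a constant. -/
def Growth (g : RMetric E M) (a b : ℝ) : Prop :=
  ∃ C : ℝ, ∀ (γ : ℝ → M) (J : ∀ t, TangentSpace 𝓘(ℝ, E) (γ t)), IsUnitGeo g γ → IsUnst g γ J →
    ∀ t, 0 ≤ t → Real.exp (a * t) * len g γ J 0 ≤ C * len g γ J t ∧
      len g γ J t ≤ C * Real.exp (b * t) * len g γ J 0

/-- Strict bunching: along each geodesic `γ` of unit speed, for some `T > 0`,
`|J₁(T)| < |J₂(T)|²` for all unstable Jacobi fields along `γ` with `|J₁(0)| = |J₂(0)| = 1`. -/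
def Bunched (g : RMetric E M) : Prop :=
  ∀ γ : ℝ → M, IsUnitGeo g γ → ∃ T : ℝ, 0 < T ∧ ∀ J₁ J₂ : ∀ t, TangentSpace 𝓘(ℝ, E) (γ t),
    IsUnst g γ J₁ → IsUnst g γ J₂ → len g γ J₁ 0 = 1 → len g γ J₂ 0 = 1 →
    len g γ J₁ T < len g γ J₂ T ^ 2

end

end Vale.Agent.P207F
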