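import Vale.Agent.P207.H248.ExpA2

/-!
# P207, second order expansion: the test map `g₀ → g₁` (helper248)

`exists_testMap`: the test map `exp (y)` and the bound of the integral of its speed.
-/

open scoped Manifold ContDiff ENNReal Topology
open Bundle MeasureTheory Set Filter Topology

noncomputable section

set_option maxSynthPendingDepth 3
set_option linter.unusedSectionVars false

namespace Vale.Agent.P207.H248

open Vale.Agent.P255 (RMetric coefIn Gam Riem IsGeo Metric Npc ExpSys toMetric geo expg cc trans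
  IsGeodesic coefL chris chrisB IsMetricOn covD vel prodF Compat IsJacobi curv)
open Vale.Agent.P207.Q Vale.Agent.P207.Q.Fl
open Vale.Agent.P207.Q.H545 (Rf Rf_eq)

variable {n : ℕ} {M : Type} [TopologicalSpace M] [ChartedSpace (EV n) M]
  [IsManifold 𝓘(ℝ, EV n) ∞ M] {g : RMetric (EV n) M} [NeZero n] [CompactSpace M] [T2Space M]

section

variable [Nonempty (Fr g)]

/-- the second constant -/
def cW (n : ℕ) (R : ℝ) : ℝ := cE n R + (6 * n ^ 2 * R) ^ 3

theorem cE_nonneg {R : ℝ} : 0 ≤ cE n R := by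
  unfold cE
  have h1 : (0 : ℝ) ≤ 10 * n ^ 6 * R ^ 2 := by positivity
  positivity

theorem small_of {R δ : ℝ} (hR : 1 ≤ R) (hδ : 0 ≤ δ) (hs : 12 * n ^ 2 * R * δ ≤ 1) :
    n ^ 3 * δ ^ 2 * R ≤ 1 / 2 := by
  have hn : (1 : ℝ) ≤ n := by exact_mod_cast Nat.one_le_iff_ne_zero.2 (NeZero.ne n)
  have h1 : (0 : ℝ) ≤ 12 * n ^ 2 * R * δ := by positivity
  have h2 : (12 * n ^ 2 * R * δ) ^ 2 ≤ 1 := by nlinarith
  have h3 : (n : ℝ) ^ 3 ≤ n ^ 4 := pow_le_pow_right₀ hn (by norm_num)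
  have h4 : R ≤ R ^ 2 := by nlinarith
  have h5 : n ^ 3 * δ ^ 2 * R ≤ n ^ 4 * δ ^ 2 * R ^ 2 := by
    have h6 : (n : ℝ) ^ 3 * R ≤ n ^ 4 * R ^ 2 := mul_le_mul h3 h4 (by linarith) (by positivity)
    nlinarith [mul_le_mul_of_nonneg_right h6 (sq_nonneg δ)]
  have h7 : (12 * n ^ 2 * R * δ) ^ 2 = 144 * (n ^ 4 * δ ^ 2 * R ^ 2) := by ring
  rw [h7] at h2
  linarith

theorem abs_XA_sub_le {R δ : ℝ} (hR : RBd g R) {y : Fr g → Fin n → ℝ}
    {k : Fin n → Fin n → Fr g → ℝ} (h : YKBd y k δ) (p : Fr g) :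
    |XA y k p - k 0 0 p| ≤ 5 * n ^ 2 * R * δ ^ 2 := by
  have hn : (1 : ℝ) ≤ n := by exact_mod_cast Nat.one_le_iff_ne_zero.2 (NeZero.ne n)
  have hR1 := hR.one_le
  have hδ := h.δ0
  have h1 : |lk y (k 0 0) p| ≤ n * (δ * δ) := by
    refine abs_sum_le fun m => ?_
    rw [abs_mul]
    exact mul_le_mul (h.by0 p m) (h.bk1 p m 0 0) (abs_nonneg _) hδ
  have h2 : |∑ j, dH 0 (fun q => y q j) p * k 0 j p| ≤ n * (δ * δ) := by
    refine abs_sum_le fun m => ?_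
    rw [abs_mul]
    exact mul_le_mul (h.by1 p m) (h.bk0 p 0 m) (abs_nonneg _) hδ
  have h3 : |∑ i, dH 0 (fun q => y q i) p ^ 2| ≤ n * (δ * δ) := by
    refine abs_sum_le fun m => ?_
    rw [pow_two, abs_mul]
    exact mul_le_mul (h.by1 p m) (h.by1 p m) (abs_nonneg _) hδ
  have h4 := abs_fK_le hR hδ (h.by0 p) p 0 0
  have h5 : XA y k p - k 0 0 p = lk y (k 0 0) p + 2 * ∑ j, dH 0 (fun q => y q j) p * k 0 j p +
    ∑ i, dH 0 (fun q => y q i) p ^ 2 - fK (y p) p 0 0 := by unfold XA; ring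
  rw [h5]
  have h6 := abs_le.1 h1
  have h7 := abs_le.1 h2
  have h8 := abs_le.1 h3
  have h9 := abs_le.1 h4
  have h10 : 4 * (n * (δ * δ)) + n ^ 2 * δ ^ 2 * R ≤ 5 * n ^ 2 * R * δ ^ 2 := by
    have e1 : (n : ℝ) ≤ n ^ 2 * R := by nlinarith
    nlinarith [mul_le_mul_of_nonneg_right e1 (sq_nonneg δ)]
  rw [abs_le]
  constructor <;> linarith

/-- **the pointwise upper bound of the speed** -/
theorem speed_le {R δ : ℝ} (hR : RBd g R) {y : Fr g → Fin n → ℝ}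
    {k : Fin n → Fin n → Fr g → ℝ} (h : YKBd y k δ) (hs : 12 * n ^ 2 * R * δ ≤ 1)
    {p : Fr g} {A B : ℝ → Fin n → ℝ} (hJ : IsJS g (y p) p A B)
    (hA : ∀ i, A 0 i = if i = 0 then 1 else 0) (hB : ∀ i, B 0 i = dH 0 (fun q => y q i) p) :
    Real.sqrt (∑ i, ∑ j, A 1 i * A 1 j *
      ((if i = j then 1 else 0) + k i j (hfl g (y p) 1 p))) ≤
      1 + XA y k p / 2 - k 0 0 p ^ 2 / 8 + cW n R * δ ^ 3 := by
  have hn : (1 : ℝ) ≤ n := by exact_mod_cast Nat.one_le_iff_ne_zero.2 (NeZero.ne n)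
  have hR1 := hR.one_le
  have hδ := h.δ0
  have hδ1 := h.δ1
  have hnR : (1 : ℝ) ≤ n ^ 2 * R := by
    have : (1 : ℝ) ≤ n ^ 2 := one_le_pow₀ hn
    nlinarith
  have h1 := W2_expand hR h (small_of hR1 hδ hs) hJ hA hB
  have h2 := abs_XA_sub_le hR h p
  have hd2 : δ ^ 2 ≤ δ := by nlinarith
  have hc1 : (1 : ℝ) ≤ 6 * n ^ 2 * R := by nlinarith
  have h3 : |k 0 0 p| ≤ 6 * n ^ 2 * R * δ :=
    (h.bk0 p 0 0).trans (le_mul_of_one_le_left hδ hc1)
  have h4 : |XA y k p| ≤ 6 * n ^ 2 * R * δ := by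
    have h5 : XA y k p = (XA y k p - k 0 0 p) + k 0 0 p := by ring
    rw [h5]
    refine (abs_add_le _ _).trans ?_
    have h6 := h.bk0 p 0 0
    have h7 : 5 * n ^ 2 * R * δ ^ 2 ≤ 5 * n ^ 2 * R * δ :=
      mul_le_mul_of_nonneg_left hd2 (by positivity)
    have h8 : δ ≤ n ^ 2 * R * δ := le_mul_of_one_le_left hδ hnR
    linarith
  refine sqrt_expand hδ hc1 cE_nonneg (by linarith) h4 h3 (h2.trans ?_) ?_
  · exact mul_le_mul_of_nonneg_right (by nlinarith) (sq_nonneg δ)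
  · linarith [(abs_le.1 h1).2]

theorem smF_fK {y : Fr g → Fin n → ℝ} (hy : SmF y) (i j : Fin n) :
    SmF (fun p => fK (y p) p i j) := by
  have h1 : ∀ k l, SmF (fun p : Fr g => y p k * y p l * Rf g p i k l j) := fun k l =>
    ((smF_comp_y hy k).mul (smF_comp_y hy l)).mul (H743.smF_Rf i k l j)
  exact H743.SmF.sum _ fun k _ => H743.SmF.sum _ fun l _ => h1 k l

theorem continuous_XA {y : Fr g → Fin n → ℝ} {k : Fin n → Fin n → Fr g → ℝ} {δ : ℝ}
    (h : YKBd y k δ) : Continuous (XA y k) := by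
  have hy := fun i => smF_comp_y h.smy i
  have h1 : Continuous (lk y (k 0 0)) :=
    continuous_finsetSum _ fun m _ => (hy m).continuous.mul (smF_dH m (h.smk 0 0)).continuous
  have h2 : Continuous fun p => ∑ j, dH 0 (fun q => y q j) p * k 0 j p :=
    continuous_finsetSum _ fun m _ => (smF_dH 0 (hy m)).continuous.mul (h.smk 0 m).continuous
  have h3 : Continuous fun p => ∑ i, dH 0 (fun q => y q i) p ^ 2 :=
    continuous_finsetSum _ fun m _ => (smF_dH 0 (hy m)).continuous.pow 2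
  exact ((((h.smk 0 0).continuous.add h1).add (continuous_const.mul h2)).add h3).sub
    (smF_fK h.smy 0 0).continuous

end

variable {g₁ : RMetric (EV n) M}

/-- the metric `g₁` in the frames of `g` is `δ + k` -/
def IsK (g₁ : RMetric (EV n) M) (k : Fin n → Fin n → Fr g → ℝ) : Prop :=
  ∀ (p : Fr g) i j, (g₁.inner p.pt (p.e i) (p.e j) : ℝ) = (if i = j then 1 else 0) + k i j p

/-- **the test map `g → g₁`**, with the pointwise bound of its speed -/
theorem exists_testMap [Nonempty (Fr g)] {φ : ℝ → UT g → UT g} (hφ : IsGeoFlow g φ)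
    (h₀ : Npc (mt g)) (h₁ : Npc (mt g₁)) {R δ : ℝ} (hR : RBd g R) {y : Fr g → Fin n → ℝ}
    {k : Fin n → Fin n → Fr g → ℝ} (h : YKBd y k δ) (hE : Equi y) (hk : IsK g₁ k)
    (hs : 12 * n ^ 2 * R * δ ≤ 1) :
    ∃ Θ : H608.TestMap g g₁ h₁ φ, ∀ f : Fr g,
      Θ.w (f.ut 0) ≤ 1 + XA y k f / 2 - k 0 0 f ^ 2 / 8 + cW n R * δ ^ 3 := by
  -- the end point
  have hend : ∀ f : Fr g, expg (mt g) (f.ut 0).pt (YU y (f.ut 0)) = (hfl g (y f) 1 f).pt := by
    intro f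
    rw [pt_hfl_one, YU_ut hE f]
    rfl
  have hflow : ∀ (f : Fr g) (t : ℝ), φ t (f.ut 0) = (hfl g (Pi.single 0 1) t f).ut 0 :=
    fun f t => ((isHorFlow_flow g (Pi.single (0 : Fin n) (1 : ℝ))).ut_eq hφ t f).symm
  -- the velocity
  let V : UT g → EV n := fun p => deriv (fun t => chartAt (EV n) (expg (mt g) p.pt (YU y p))
    (expg (mt g) (φ t p).pt (YU y (φ t p)))) 0
  have hV : ∀ f : Fr g, ∃ A B : ℝ → Fin n → ℝ, IsJS g (y f) f A B ∧
      (∀ i, A 0 i = if i = 0 then 1 else 0) ∧ (∀ i, B 0 i = dH 0 (fun q => y q i) f) ∧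
      HasDerivAt (fun t => chartAt (EV n) (expg (mt g) (f.ut 0).pt (YU y (f.ut 0)))
        (expg (mt g) (φ t (f.ut 0)).pt (YU y (φ t (f.ut 0)))))
        (∑ i, A 1 i • (chF (hfl g (y f) 1 f).pt (hfl g (y f) 1 f).1).2 i) 0 := by
    intro f
    obtain ⟨A, B, hJ, hA, hB, hd⟩ := exists_js h.smy f
    refine ⟨A, B, hJ, hA, hB, ?_⟩
    have h1 := hd (hfl g (y f) 1 f).pt (mem_chart_source _ _)
    simp only [hflow, hend]
    exact h1
  have hVd : ∀ p : UT g, HasDerivAt (fun t => chartAt (EV n) (expg (mt g) p.pt (YU y p))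
      (expg (mt g) (φ t p).pt (YU y (φ t p)))) (V p) 0 := by
    intro p
    obtain ⟨f, rfl⟩ := H892.exists_frame_ut p
    obtain ⟨A, B, -, -, -, hd⟩ := hV f
    exact hd.differentiableAt.hasDerivAt
  let W : Fr g → ℝ := fun p => 1 + XA y k p / 2 - k 0 0 p ^ 2 / 8 + cW n R * δ ^ 3
  have hW : Continuous W :=
    ((continuous_const.add ((continuous_XA h).div_const 2)).sub
      (((h.smk 0 0).continuous.pow 2).div_const 8)).add continuous_const
  have hN : ∀ f : Fr g, (sys g₁ h₁).nrm (expg (mt g) (f.ut 0).pt (YU y (f.ut 0))) (V (f.ut 0)) ≤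
      W f := by
    intro f
    obtain ⟨A, B, hJ, hA, hB, hd⟩ := hV f
    have h1 : V (f.ut 0) = ∑ i, A 1 i • (chF (hfl g (y f) 1 f).pt (hfl g (y f) 1 f).1).2 i :=
      hd.deriv
    rw [h1, hend, nrm_comb h₁]
    simp only [hk (hfl g (y f) 1 f)]
    exact speed_le hR h hs hJ hA hB
  obtain ⟨w, hw, hw1, hw2⟩ := exists_desc hW
    (N := fun p => (sys g₁ h₁).nrm (expg (mt g) p.pt (YU y p)) (V p)) hN
  exact ⟨H608.TestMap.ofExp g h₁ h₀ (YU y) (continuous_YU hE h.smy.continuous) V w hw hVd hw1, hw2⟩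

end Vale.Agent.P207.H248
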