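import Vale.Agent.P207.H248.VarJ
import Vale.Agent.P207.Q.H743.CurvSm
import Vale.Agent.P207.Q.H129.JacFr

/-!
# P207, second order expansion: the velocity of the test map in a moving frame (helper248)

`fam ξ f (s, t)`: the horizontal flow in the direction `ξ t` for the time `s`, applied to the frame
`f t`. Its `t`-derivative, expressed in the frame, solves the Jacobi equation.
-/

open scoped Manifold ContDiff ENNReal Topology
open Bundle MeasureTheory Set Filter Topology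

noncomputable section

set_option maxSynthPendingDepth 3
set_option linter.unusedSectionVars false

namespace Vale.Agent.P207.H248

open Vale.Agent.P255 (RMetric coefIn Gam Riem IsGeo Metric Npc ExpSys toMetric geo expg cc trans
  IsGeodesic coefL chris chrisB IsMetricOn covD vel prodF Compat IsJacobi curv)
open Vale.Agent.P207.Q Vale.Agent.P207.Q.Fl
open Vale.Agent.P207.Q.H545 (Rf Rf_eq)

variable {n : ℕ} {M : Type} [TopologicalSpace M] [ChartedSpace (EV n) M]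
  [IsManifold 𝓘(ℝ, EV n) ∞ M] {g : RMetric (EV n) M}

/-- horizontal curves project to geodesics -/
theorem deriv_cc_hor {ι : Type} [Fintype ι] [Nonempty ι] {c : ℝ → LF ι n M} {ξ : ι → ℝ}
    (h : IsHorOn g ξ c univ) {a : M} {t : ℝ} (ha : (c t).pt ∈ (chartAt (EV n) a).source) :
    HasDerivAt (cc (E := EV n) (fun r => (c r).pt) a) (∑ i, ξ i • (chF a (c t)).2 i) t :=
  (h.eqn a t (mem_univ t) ha).fst

theorem isGeodesic_hor {ι : Type} [Fintype ι] [Nonempty ι] {c : ℝ → LF ι n M} {ξ : ι → ℝ}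
    (h : IsHorOn g ξ c univ) : IsGeodesic (mt g) (fun t => (c t).pt) := by
  have hc : Continuous (fun t => (c t).pt) :=
    continuous_LF_pt.comp (continuous_iff_continuousAt.2 fun t => h.cont t (mem_univ t))
  refine ⟨hc.continuousOn, fun a t _ ha => ?_⟩
  have hev : ∀ᶠ r in 𝓝 t, (c r).pt ∈ (chartAt (EV n) a).source :=
    hc.continuousAt.preimage_mem_nhds ((chartAt (EV n) a).open_source.mem_nhds ha)
  have h1 := deriv_cc_hor h ha
  have h2 : deriv (cc (E := EV n) (fun r => (c r).pt) a) =ᶠ[𝓝 t]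
      fun r => ∑ i, ξ i • (chF a (c r)).2 i := by
    filter_upwards [hev] with r hr
    exact (deriv_cc_hor h hr).deriv
  have h3 : ∀ i, HasDerivAt (fun r => (chF a (c r)).2 i)
      (- chris ((mt g).coef a) (chF a (c t)).1 (∑ i, ξ i • (chF a (c t)).2 i)
        ((chF a (c t)).2 i)) t := fun i =>
    (hasDerivAt_pi.1 (h.eqn a t (mem_univ t) ha).snd) i
  have h3' : HasDerivAt (fun r => ∑ i, ξ i • (chF a (c r)).2 i)
      (∑ i, ξ i • (- chris ((mt g).coef a) (chF a (c t)).1 (∑ i, ξ i • (chF a (c t)).2 i)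
        ((chF a (c t)).2 i))) t := HasDerivAt.fun_sum fun i _ => (h3 i).const_smul (ξ i)
  have h4 := h3'.congr_of_eventuallyEq h2
  refine ⟨h1.differentiableAt, h4.differentiableAt, ?_⟩
  rw [h4.deriv, h1.deriv]
  simp only [← P255.chrisB_apply, smul_neg, Finset.sum_neg_distrib]
  rw [neg_inj]
  conv_rhs => rw [map_sum]
  simp only [map_smul]
  rfl

variable [Nonempty (Fr g)] [NeZero n] [CompactSpace M] [T2Space M]

/-- the two-parameter family -/
def fam (ξ : ℝ → Fin n → ℝ) (f : ℝ → Fr g) (p : ℝ × ℝ) : Fr g :=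
  CSys.flow (horVF g (ξ p.2)) p.1 (f p.2)

/-- the base point in a chart -/
def fx (ξ : ℝ → Fin n → ℝ) (f : ℝ → Fr g) (a : M) (p : ℝ × ℝ) : EV n :=
  (chF a (fam ξ f p).1).1

/-- the frame vectors along the geodesic in a chart -/
def fe (ξ : ℝ → Fin n → ℝ) (f : ℝ → Fr g) (i : Fin n) (a : M) (s : ℝ) : EV n :=
  (chF a (fam ξ f (s, 0)).1).2 i

/-- the geodesic -/
def fγ (ξ : ℝ → Fin n → ℝ) (f : ℝ → Fr g) (s : ℝ) : M := (fam ξ f (s, 0)).pt

/-- the variation field -/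
def fJ (ξ : ℝ → Fin n → ℝ) (f : ℝ → Fr g) (a : M) (s : ℝ) : EV n := xt (fx ξ f a) (s, 0)

variable {ξ : ℝ → Fin n → ℝ} {f : ℝ → Fr g}

theorem fam_plot (hf : (frSys g).dif.At f 0) (hξ : Sm ξ 0) (s : ℝ) :
    (frSys g).dif.At (fam ξ f) (s, 0) := by
  have h1 : (frSys g).dif.At (fun p : ℝ × ℝ => f p.2) (s, 0) :=
    (frSys g).dif.comp (u := f) (g := Prod.snd) (x := ((s, 0) : ℝ × ℝ)) hf
      (Sm.of_contDiff contDiff_snd _)
  have h2 : Sm (fun p : ℝ × ℝ => ξ p.2) (s, 0) :=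
    Sm.comp (f := ξ) (g := Prod.snd) (x := ((s, 0) : ℝ × ℝ)) hξ (Sm.of_contDiff contDiff_snd _)
  exact hor_plot g h1 h2 (Sm.of_contDiff contDiff_fst _)

theorem fam_hor (t : ℝ) : IsHorOn g (ξ t) (fun s => (fam ξ f (s, t)).1) univ :=
  (isHorFlow_flow g (ξ t) (f t)).2

theorem sm_chF (hf : (frSys g).dif.At f 0) (hξ : Sm ξ 0) {s : ℝ} {a : M}
    (ha : fγ ξ f s ∈ (chartAt (EV n) a).source) :
    Sm (fun p => chF a (fam ξ f p).1) (s, 0) := by
  have h1 := fam_plot hf hξ s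
  have h2 : ∀ᶠ p in 𝓝 (s, (0 : ℝ)), fam ξ f p ∈ (frSys g).S a :=
    (CSys.at_cont (frSys g) h1).eventually (((frSys g).isOpen_S a).mem_nhds ha)
  filter_upwards [h1, h2] with p h3 h4
  exact h3.2 a h4

theorem ev_source (hf : (frSys g).dif.At f 0) (hξ : Sm ξ 0) {s : ℝ} {a : M}
    (ha : fγ ξ f s ∈ (chartAt (EV n) a).source) :
    ∀ᶠ p in 𝓝 (s, (0 : ℝ)), (fam ξ f p).pt ∈ (chartAt (EV n) a).source :=
  (CSys.at_cont (frSys g) (fam_plot hf hξ s)).eventually (((frSys g).isOpen_S a).mem_nhds ha)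

theorem sm_fx (hf : (frSys g).dif.At f 0) (hξ : Sm ξ 0) {s : ℝ} {a : M}
    (ha : fγ ξ f s ∈ (chartAt (EV n) a).source) : Sm (fx ξ f a) (s, 0) :=
  (sm_chF hf hξ ha).fst

/-- the `s`-derivative of the base point -/
theorem xs_fx {a : M} {p : ℝ × ℝ} (hs : Sm (fx ξ f a) p)
    (hp : (fam ξ f p).pt ∈ (chartAt (EV n) a).source) :
    xs (fx ξ f a) p = ∑ i, ξ p.2 i • (chF a (fam ξ f p).1).2 i := by
  obtain ⟨s, t⟩ := p
  have h1 : HasDerivAt (fun r => fx ξ f a (r, t)) (xs (fx ξ f a) (s, t)) s :=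
    hasDerivAt_slice1 hs.differentiableAt
  have h2 := deriv_cc_hor (fam_hor (ξ := ξ) (f := f) t) (a := a) (t := s) hp
  exact h1.unique h2

theorem geo_fx {a : M} {p : ℝ × ℝ} (hs : Sm (fx ξ f a) p)
    (hp : ∀ᶠ q in 𝓝 p, (fam ξ f q).pt ∈ (chartAt (EV n) a).source) :
    xs (xs (fx ξ f a)) p = - chris ((mt g).coef a) (fx ξ f a p) (xs (fx ξ f a) p)
      (xs (fx ξ f a) p) := by
  obtain ⟨s, t⟩ := p
  have hgeo := isGeodesic_hor (fam_hor (ξ := ξ) (f := f) t)
  have h1 : HasDerivAt (fun r => xs (fx ξ f a) (r, t)) (xs (xs (fx ξ f a)) (s, t)) s :=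
    hasDerivAt_slice1 (smXs hs).differentiableAt
  have hc : ContinuousAt (fun r : ℝ => ((r, t) : ℝ × ℝ)) s := by fun_prop
  have h2 : (fun r => xs (fx ξ f a) (r, t)) =ᶠ[𝓝 s]
      deriv (cc (E := EV n) (fun r => (fam ξ f (r, t)).1.pt) a) := by
    filter_upwards [hc.eventually hs.eventually] with r hr
    exact (hasDerivAt_slice1 hr.differentiableAt).deriv.symm
  have h3 := hgeo.eqn a s (mem_univ _) hp.self_of_nhds
  have h4 := (h1.congr_of_eventuallyEq h2.symm).deriv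
  rw [← h4, h3.2.2, ← h2.eq_of_nhds]
  rfl

theorem continuous_fγ : Continuous (fγ ξ f) :=
  Fr.continuous_pt.comp (CSys.continuous_flow_left (horVF g (ξ 0)) (f 0))

theorem isGeodesic_fγ : IsGeodesic (mt g) (fγ ξ f) :=
  isGeodesic_hor (fam_hor (ξ := ξ) (f := f) 0)

theorem cc_fγ (a : M) : cc (E := EV n) (fγ ξ f) a = fun s => fx ξ f a (s, 0) := rfl

theorem vel_fγ {a : M} {s : ℝ} (ha : fγ ξ f s ∈ (chartAt (EV n) a).source) :
    deriv (cc (E := EV n) (fγ ξ f) a) s = ∑ i, ξ 0 i • fe ξ f i a s :=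
  (deriv_cc_hor (fam_hor (ξ := ξ) (f := f) 0) ha).deriv

theorem parFrame_fe : ParFrame (mt g) (fγ ξ f) (fe ξ f) :=
  (isHorFlow_flow g (ξ 0)).parFrame (f 0) id Function.injective_id

/-- **the variation field is a Jacobi field** -/
theorem isJacobi_fJ (hf : (frSys g).dif.At f 0) (hξ : Sm ξ 0) :
    IsJacobi (mt g) (fγ ξ f) (fJ ξ f) := by
  refine ⟨?_, ?_⟩
  · intro a b s ha hb
    have h1 := sm_fx hf hξ ha
    have h2 := ev_source hf hξ ha
    have h3 : fx ξ f b =ᶠ[𝓝 (s, (0 : ℝ))] fun p => trans (EV n) a b (fx ξ f a p) := by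
      filter_upwards [h2] with p hp
      exact (P255.trans_symm_source a b hp).symm
    have h4 : DifferentiableAt ℝ (trans (EV n) a b) (fx ξ f a (s, 0)) := by
      refine (P255.contDiffAt_trans a b ((chartAt (EV n) a).map_source ha) ?_).differentiableAt
        (by simp)
      rw [(chartAt (EV n) a).left_inv ha]
      exact hb
    have h5 : HasFDerivAt (fun p => trans (EV n) a b (fx ξ f a p))
        ((fderiv ℝ (trans (EV n) a b) (fx ξ f a (s, 0))).comp (fderiv ℝ (fx ξ f a) (s, 0))) (s, 0) :=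
      HasFDerivAt.comp (g := trans (EV n) a b) (f := fx ξ f a) (s, 0) h4.hasFDerivAt
        h1.differentiableAt.hasFDerivAt
    unfold fJ xt
    rw [h3.fderiv_eq, h5.fderiv]
    rfl
  · intro a s ha
    have hm := (mt g).isMetricOn a
    have h1 := sm_fx hf hξ ha
    have h2 := ev_source hf hξ ha
    have hgeo : ∀ᶠ p in 𝓝 (s, (0 : ℝ)), xs (xs (fx ξ f a)) p =
        - chris ((mt g).coef a) (fx ξ f a p) (xs (fx ξ f a) p) (xs (fx ξ f a) p) := by
      filter_upwards [h1.eventually, eventually_eventually_nhds.2 h2] with p h3 h4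
      exact geo_fx h3 h4
    have hU : fx ξ f a (s, 0) ∈ (chartAt (EV n) a).target := (chartAt (EV n) a).map_source ha
    obtain ⟨h3, h4⟩ := var_jacobi hm h1 hU hgeo
    have h5 : (fun r => xt (xs (fx ξ f a)) (r, 0)) =ᶠ[𝓝 s] deriv (fJ ξ f a) := by
      filter_upwards [h3] with r hr
      exact hr.2.1.deriv.symm
    have h6 : (fun r => xs (fx ξ f a) (r, 0)) =ᶠ[𝓝 s] deriv (cc (E := EV n) (fγ ξ f) a) := by
      filter_upwards [h3] with r hr
      exact hr.1.deriv.symm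
    have h7 := h4.congr_of_eventuallyEq h5.symm
    have h8 : xt (xs (fx ξ f a)) (s, 0) = deriv (fJ ξ f a) s := h5.eq_of_nhds
    have h9 : xs (fx ξ f a) (s, 0) = deriv (cc (E := EV n) (fγ ξ f) a) s := h6.eq_of_nhds
    rw [h8, h9] at h7
    have hc : ∀ᶠ r in 𝓝 s, DifferentiableAt ℝ (cc (E := EV n) (fγ ξ f) a) r ∧
        DifferentiableAt ℝ (deriv (cc (E := EV n) (fγ ξ f) a)) r ∧
        deriv (deriv (cc (E := EV n) (fγ ξ f) a)) r = - chris ((mt g).coef a)
          (cc (E := EV n) (fγ ξ f) a r) (deriv (cc (E := EV n) (fγ ξ f) a) r)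
          (deriv (cc (E := EV n) (fγ ξ f) a) r) := by
      filter_upwards [continuous_fγ.continuousAt.preimage_mem_nhds
        ((chartAt (EV n) a).open_source.mem_nhds ha)] with r hr
      exact isGeodesic_fγ.eqn a r (mem_univ _) hr
    have hJd : ∀ᶠ r in 𝓝 s, DifferentiableAt ℝ (fJ ξ f a) r := by
      filter_upwards [h3] with r hr
      exact hr.2.1.differentiableAt
    obtain ⟨h10, h11⟩ := hm.jacobi_of_linearized (c := cc (E := EV n) (fγ ξ f) a)
      (J := fJ ξ f a) (t := s) hU hc hJd h7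
    exact ⟨hJd.self_of_nhds, h10, h11⟩

/-- the components of the variation field in the frame -/
def fA (ξ : ℝ → Fin n → ℝ) (f : ℝ → Fr g) (s : ℝ) (i : Fin n) : ℝ :=
  prodF (mt g) (fγ ξ f) (fJ ξ f) (fe ξ f i) s

/-- the components of its covariant derivative -/
def fB (ξ : ℝ → Fin n → ℝ) (f : ℝ → Fr g) (s : ℝ) (i : Fin n) : ℝ :=
  (mt g).coef (fγ ξ f s) (cc (fγ ξ f) (fγ ξ f s) s)
    (covD ((mt g).coef (fγ ξ f s)) (cc (fγ ξ f) (fγ ξ f s)) (fJ ξ f (fγ ξ f s)) s)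
    (fe ξ f i (fγ ξ f s) s)

/-- the curvature operator of the geodesic in the frame -/
def fK (v : Fin n → ℝ) (p : Fr g) (i j : Fin n) : ℝ := ∑ k, ∑ l, v k * v l * Rf g p i k l j

theorem hasDerivAt_fA (hf : (frSys g).dif.At f 0) (hξ : Sm ξ 0) (s : ℝ) (i : Fin n) {a : M}
    (ha : fγ ξ f s ∈ (chartAt (EV n) a).source) :
    HasDerivAt (fun s => fA ξ f s i)
      ((mt g).coef a (cc (fγ ξ f) a s) (covD ((mt g).coef a) (cc (fγ ξ f) a) (fJ ξ f a) s)
        (fe ξ f i a s)) s := by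
  have hJ := isJacobi_fJ hf hξ
  have hF := parFrame_fe (ξ := ξ) (f := f)
  have h2 := isGeodesic_fγ (ξ := ξ) (f := f) |>.eqn a s (mem_univ _) ha
  have h3 := P255.hasDerivAt_prodF (mt g) continuous_fγ hJ.compat' (hF.compat i) ha h2.1
    (hJ.eqn a s ha).1 (hF.diff i a s ha)
  rw [hF.par i a s ha, map_zero, add_zero] at h3
  exact h3

theorem fB_eq (hf : (frSys g).dif.At f 0) (hξ : Sm ξ 0) (s : ℝ) (i : Fin n) {a : M}
    (ha : fγ ξ f s ∈ (chartAt (EV n) a).source) :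
    fB ξ f s i = (mt g).coef a (cc (fγ ξ f) a s)
      (covD ((mt g).coef a) (cc (fγ ξ f) a) (fJ ξ f a) s) (fe ξ f i a s) :=
  (hasDerivAt_fA hf hξ s i (mem_chart_source _ _)).unique (hasDerivAt_fA hf hξ s i ha)

theorem fA_eq (hf : (frSys g).dif.At f 0) (hξ : Sm ξ 0) (s : ℝ) (i : Fin n) {a : M}
    (ha : fγ ξ f s ∈ (chartAt (EV n) a).source) :
    fA ξ f s i = (mt g).coef a (cc (fγ ξ f) a s) (fJ ξ f a s) (fe ξ f i a s) :=
  P255.prodF_eq (mt g) (isJacobi_fJ hf hξ).compat' (parFrame_fe.compat i) ha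

/-- the variation field is the combination of the frame with the coefficients `fA` -/
theorem fJ_eq (hf : (frSys g).dif.At f 0) (hξ : Sm ξ 0) (s : ℝ) {a : M}
    (ha : fγ ξ f s ∈ (chartAt (EV n) a).source) :
    fJ ξ f a s = ∑ i, fA ξ f s i • fe ξ f i a s := by
  rw [(parFrame_fe (ξ := ξ) (f := f)).expand (by simp) ha (fJ ξ f a s)]
  exact Finset.sum_congr rfl fun i _ => by rw [fA_eq hf hξ s i ha]

theorem tri_expand {E : Type} [NormedAddCommGroup E] [NormedSpace ℝ E]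
    (T : E →L[ℝ] E →L[ℝ] E →L[ℝ] E) (B : E →L[ℝ] E →L[ℝ] ℝ) (e : Fin n → E) (A v : Fin n → ℝ)
    (w : E) :
    B (T (∑ j, A j • e j) (∑ k, v k • e k) (∑ l, v l • e l)) w =
      ∑ j, (∑ k, ∑ l, v k * v l * B (T (e j) (e k) (e l)) w) * A j := by
  have h1 : ∀ X Y, B (T X Y (∑ l, v l • e l)) w = ∑ l, v l * B (T X Y (e l)) w := by
    intro X Y
    simp only [map_sum, map_smul, _root_.sum_apply, _root_.smul_apply, smul_eq_mul]
  have h2 : ∀ X, B (T X (∑ k, v k • e k) (∑ l, v l • e l)) w =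
      ∑ k, ∑ l, v k * v l * B (T X (e k) (e l)) w := by
    intro X
    have h3 : ∀ Z, T X (∑ k, v k • e k) Z = ∑ k, v k • T X (e k) Z := by
      intro Z
      rw [map_sum, _root_.sum_apply]
      exact Finset.sum_congr rfl fun k _ => by rw [map_smul, _root_.smul_apply]
    rw [h3]
    simp only [map_sum (B), map_smul (B), _root_.sum_apply, _root_.smul_apply, smul_eq_mul, h1,
      Finset.mul_sum, mul_assoc]
  have h4 : ∀ Y Z, T (∑ j, A j • e j) Y Z = ∑ j, A j • T (e j) Y Z := by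
    intro Y Z
    rw [map_sum, _root_.sum_apply, _root_.sum_apply]
    exact Finset.sum_congr rfl fun k _ => by
      rw [map_smul, _root_.smul_apply, _root_.smul_apply]
  rw [h4]
  simp only [map_sum (B), map_smul (B), _root_.sum_apply, _root_.smul_apply, smul_eq_mul, h2]
  exact Finset.sum_congr rfl fun j _ => mul_comm _ _

theorem hasDerivAt_fB (hf : (frSys g).dif.At f 0) (hξ : Sm ξ 0) (s : ℝ) (i : Fin n) :
    HasDerivAt (fun s => fB ξ f s i)
      (- ∑ j, fK (ξ 0) (fam ξ f (s, 0)) j i * fA ξ f s j) s := by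
  have ha := mem_chart_source (EV n) (fγ ξ f s)
  set a := fγ ξ f s with had
  have hJ := isJacobi_fJ hf hξ
  have hF := parFrame_fe (ξ := ξ) (f := f)
  have hgeo := isGeodesic_fγ (ξ := ξ) (f := f)
  have h2 := hgeo.eqn a s (mem_univ _) ha
  have hm := (mt g).isMetricOn' a
  have h4 := hm.hasDerivAt_inner (P255.cc_mem ha) h2.1 (hJ.eqn a s ha).2.1 (hF.diff i a s ha)
  have h5 : covD ((mt g).coef a) (cc (fγ ξ f) a) (covD ((mt g).coef a) (cc (fγ ξ f) a)
      (fJ ξ f a)) s = - curv ((mt g).coef a) (cc (fγ ξ f) a s) (fJ ξ f a s)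
        (deriv (cc (fγ ξ f) a) s) (deriv (cc (fγ ξ f) a) s) :=
    eq_neg_of_add_eq_zero_left (hJ.eqn a s ha).2.2
  rw [hF.par i a s ha, h5, map_zero, add_zero] at h4
  have h6 : (fun s => fB ξ f s i) =ᶠ[𝓝 s] fun s => (mt g).coef a (cc (fγ ξ f) a s)
      (covD ((mt g).coef a) (cc (fγ ξ f) a) (fJ ξ f a) s) (fe ξ f i a s) := by
    filter_upwards [continuous_fγ.continuousAt.preimage_mem_nhds
      ((chartAt (EV n) a).open_source.mem_nhds ha)] with r hr
    exact fB_eq hf hξ r i hr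
  refine (h4.congr_of_eventuallyEq h6).congr_deriv ?_
  rw [vel_fγ ha, fJ_eq hf hξ s ha, ← D1.curvT_apply hm (P255.cc_mem ha)]
  rw [map_neg, _root_.neg_apply, neg_inj]
  refine (tri_expand _ _ (fun j => fe ξ f j a s) (fA ξ f s) (ξ 0) _).trans ?_
  refine Finset.sum_congr rfl fun j _ => ?_
  congr 1
  refine Finset.sum_congr rfl fun k _ => Finset.sum_congr rfl fun l _ => ?_
  congr 1
  rw [Rf_eq (fam ξ f (s, 0)) j k l i ha]
  rfl

end Vale.Agent.P207.H248
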