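import Vale.Agent.P207.H248.VarI
import Vale.Agent.P207.H608.Lift

/-!
# P207, second order expansion: the variation formula for differentiable curves (helper248)

`var_curve`: `c` a curve of frames and `η` a curve of directions, both differentiable at time `0`.
The point `exp (c t, η t)` has the velocity `∑ A i 1 • e i`, `A` the solution of the Jacobi system
with initial values given by the horizontal and vertical components of the velocity of `c`.
-/

open scoped Manifold ContDiff ENNReal Topology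
open Bundle MeasureTheory Set Filter Topology

noncomputable section

set_option maxSynthPendingDepth 3
set_option linter.unusedSectionVars false

namespace Vale.Agent.P207.H248

open Vale.Agent.P255 (RMetric coefIn Gam Riem IsGeo Metric Npc ExpSys toMetric geo expg cc trans
  IsGeodesic coefL chris chrisB IsMetricOn covD vel prodF Compat IsJacobi curv)
open Vale.Agent.P207.Q Vale.Agent.P207.Q.Fl
open Vale.Agent.P207.Q.H545 (Rf Rf_eq)

variable {n : ℕ} {M : Type} [TopologicalSpace M] [ChartedSpace (EV n) M]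
  [IsManifold 𝓘(ℝ, EV n) ∞ M] {g : RMetric (EV n) M}
  [Nonempty (Fr g)] [NeZero n] [CompactSpace M] [T2Space M]

/-- the Jacobi system along the horizontal curve -/
structure IsJS (g : RMetric (EV n) M) [Nonempty (Fr g)] [NeZero n] (ξ : Fin n → ℝ) (p : Fr g)
    (A B : ℝ → Fin n → ℝ) : Prop where
  dA : ∀ s i, HasDerivAt (fun s => A s i) (B s i) s
  dB : ∀ s i, HasDerivAt (fun s => B s i)
    (-∑ j, fK ξ (CSys.flow (horVF g ξ) s p) j i * A s j) s

/-- the retraction to the frame bundle is the identity on tangent vectors -/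
theorem fderiv_gsSt_tangent {c : ℝ → Fr g} (hc : ContinuousAt c 0) {a : M}
    (ha : (c 0).pt ∈ (chartAt (EV n) a).source) {z : St (Fin n) n}
    (hz : HasDerivAt (fun t => chF a (c t).1) z 0) :
    fderiv ℝ (gsSt ((mt g).coef a)) (chF a (c 0).1) z = z := by
  have hm := (mt g).isMetricOn a
  have h1 : DifferentiableAt ℝ (gsSt ((mt g).coef a)) (chF a (c 0).1) :=
    (contDiffAt_gsSt hm (mem_gsDom_chF a (c 0) ha)).differentiableAt (by simp)
  have h2 := h1.hasFDerivAt.comp_hasDerivAt 0 hz
  have h3 : (fun t => chF a (c t).1) =ᶠ[𝓝 0]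
      (gsSt ((mt g).coef a) ∘ fun t => chF a (c t).1) := by
    filter_upwards [H608.eventually_source hc ha] with t ht
    exact (gsSt_of_orth (orth_chFg g (c t) a ht)).symm
  exact (h2.congr_of_eventuallyEq h3).unique hz

/-- **the variation formula** -/
theorem var_curve {c : ℝ → Fr g} (hc : ContinuousAt c 0) {a : M}
    (ha : (c 0).pt ∈ (chartAt (EV n) a).source) {z : St (Fin n) n}
    (hz : HasDerivAt (fun t => chF a (c t).1) z 0) {η : ℝ → Fin n → ℝ} {η' : Fin n → ℝ}
    (hη : HasDerivAt η η' 0) :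
    ∃ A B : ℝ → Fin n → ℝ, IsJS g (η 0) (c 0) A B ∧
      (∀ i, A 0 i = H608.cH ((mt g).coef a) (chF a (c 0).1) z i) ∧
      (∀ i, B 0 i = η' i + ∑ j, H608.cV ((mt g).coef a) (chF a (c 0).1) z i j * η 0 j) ∧
      ∀ s b, (CSys.flow (horVF g (η 0)) s (c 0)).pt ∈ (chartAt (EV n) b).source →
        HasDerivAt (fun t => chartAt (EV n) b (CSys.flow (horVF g (η t)) s (c t)).pt)
          (∑ i, A s i • (chF b (CSys.flow (horVF g (η 0)) s (c 0)).1).2 i) 0 := by
  have hm := (mt g).isMetricOn a
  set z₀ := chF a (c 0).1 with hz₀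
  have hdom : z₀ ∈ gsDom ((mt g).coef a) (chartAt (EV n) a).target := mem_gsDom_chF a (c 0) ha
  let r : St (Fin n) n → Fr g := fun y => invF g a (gsSt ((mt g).coef a) y)
  let c' : ℝ → Fr g := fun t => r (z₀ + t • z)
  let e' : ℝ → Fin n → ℝ := fun t => η 0 + t • η'
  have hr0 : r z₀ = c 0 := retr_chF a (c 0) ha
  have hc0 : c' 0 = c 0 := by
    change r (z₀ + (0 : ℝ) • z) = _
    rw [zero_smul, add_zero, hr0]
  have he0 : e' 0 = η 0 := by
    change η 0 + (0 : ℝ) • η' = _
    rw [zero_smul, add_zero]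
  have hline : Sm (fun t : ℝ => z₀ + t • z) 0 :=
    Sm.of_contDiff (contDiff_const.add (contDiff_id.smul contDiff_const)) _
  have hc' : (frSys g).dif.At c' 0 := by
    have h1 : (frSys g).dif.At r ((fun t : ℝ => z₀ + t • z) 0) := by
      simp only [zero_smul, add_zero]
      exact at_retr a hdom
    exact (frSys g).dif.comp (u := r) (g := fun t : ℝ => z₀ + t • z) (x := (0 : ℝ)) h1 hline
  have he' : Sm e' 0 := Sm.of_contDiff (contDiff_const.add (contDiff_id.smul contDiff_const)) _
  have hed : HasDerivAt e' η' 0 := by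
    have h1 := ((hasDerivAt_id (0 : ℝ)).smul_const η').const_add (η 0)
    rw [one_smul] at h1
    exact h1
  have hld : HasDerivAt (fun t : ℝ => z₀ + t • z) z 0 := by
    have h1 := ((hasDerivAt_id (0 : ℝ)).smul_const z).const_add z₀
    rw [one_smul] at h1
    exact h1
  have hkey : ∀ y ∈ gsDom ((mt g).coef a) (chartAt (EV n) a).target,
      chF a (r y).1 = gsSt ((mt g).coef a) y := fun y hy =>
    chF_invF g a _ (show (gsSt ((mt g).coef a) y).1 ∈ _ from hy.1) (orth_gsSt hm hy)
  have hz' : HasDerivAt (fun t => chF a (c' t).1) z 0 := by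
    have h1 : HasFDerivAt (gsSt ((mt g).coef a)) (fderiv ℝ (gsSt ((mt g).coef a)) z₀)
        ((fun t : ℝ => z₀ + t • z) 0) := by
      simp only [zero_smul, add_zero]
      exact ((contDiffAt_gsSt hm hdom).differentiableAt (by simp)).hasFDerivAt
    have h2 := h1.comp_hasDerivAt 0 hld
    rw [fderiv_gsSt_tangent hc ha hz] at h2
    refine h2.congr_of_eventuallyEq ?_
    have h3 : ContinuousAt (fun t : ℝ => z₀ + t • z) 0 := hld.continuousAt
    have h4 : ∀ᶠ t in 𝓝 (0 : ℝ), z₀ + t • z ∈ gsDom ((mt g).coef a) (chartAt (EV n) a).target := by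
      refine h3.preimage_mem_nhds ((isOpen_gsDom hm).mem_nhds ?_)
      simp only [zero_smul, add_zero]
      exact hdom
    filter_upwards [h4] with t ht
    exact hkey _ ht
  have ha' : (c' 0).pt ∈ (chartAt (EV n) a).source := by rw [hc0]; exact ha
  have hfam : ∀ s, fam e' c' (s, 0) = CSys.flow (horVF g (η 0)) s (c 0) := by
    intro s
    unfold fam
    simp only [he0, hc0]
  refine ⟨fA e' c', fB e' c', ⟨fun s i => ?_, fun s i => ?_⟩, fun i => ?_, fun i => ?_,
    fun s b hb => ?_⟩
  · have h1 := hasDerivAt_fA hc' he' s i (mem_chart_source (EV n) (fγ e' c' s))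
    exact h1
  · have h1 := hasDerivAt_fB hc' he' s i
    rw [hfam, he0] at h1
    exact h1
  · rw [fA_zero hc' he' ha' hz' i, hc0]
    rfl
  · rw [fB_zero hc' he' ha' hz' hed i, hc0, he0]
    congr 1
    exact Finset.sum_congr rfl fun j _ => mul_comm _ _
  · have hb' : (fam e' c' (s, 0)).pt ∈ (chartAt (EV n) b).source := by rw [hfam]; exact hb
    have h1 := hasDerivAt_end hc' he' s hb'
    rw [hfam] at h1
    -- the smooth function of the state and the direction
    let Ψ : St (Fin n) n × (Fin n → ℝ) → EV n := fun q =>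
      (chF b (CSys.flow (horVF g q.2) s (r q.1)).1).1
    have hΨ : Sm Ψ (z₀, η 0) := by
      have h2 : (frSys g).dif.At (fun q : St (Fin n) n × (Fin n → ℝ) => r q.1) (z₀, η 0) :=
        (frSys g).dif.comp (u := r) (g := Prod.fst) (x := (z₀, η 0)) (at_retr a hdom)
          (Sm.of_contDiff contDiff_fst _)
      have h3 : Sm (fun q : St (Fin n) n × (Fin n → ℝ) => q.2) (z₀, η 0) :=
        Sm.of_contDiff contDiff_snd _
      have h4 : Sm (fun _ : St (Fin n) n × (Fin n → ℝ) => s) (z₀, η 0) :=
        Sm.of_contDiff contDiff_const _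
      have h5 := hor_plot g h2 h3 h4
      have h6 : CSys.flow (horVF g (z₀, η 0).2) s (r (z₀, η 0).1) =
          CSys.flow (horVF g (η 0)) s (c 0) := by
        simp only [hr0]
      have h7 : ∀ᶠ q in 𝓝 (z₀, η 0), CSys.flow (horVF g q.2) s (r q.1) ∈ (frSys g).S b := by
        refine (CSys.at_cont (frSys g) h5).eventually (((frSys g).isOpen_S b).mem_nhds ?_)
        exact (congrArg (fun q : Fr g => q ∈ (frSys g).S b) h6).mpr hb
      have h8 : Sm (fun q : St (Fin n) n × (Fin n → ℝ) =>
          chF b (CSys.flow (horVF g q.2) s (r q.1)).1) (z₀, η 0) := by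
        filter_upwards [h5, h7] with q h9 h10
        exact h9.2 b h10
      exact h8.fst
    have hd := hΨ.differentiableAt.hasFDerivAt
    have hA : HasDerivAt (fun t => Ψ (z₀ + t • z, e' t)) (fderiv ℝ Ψ (z₀, η 0) (z, η')) 0 := by
      have h2 : HasFDerivAt Ψ (fderiv ℝ Ψ (z₀, η 0))
          ((fun t : ℝ => ((z₀ + t • z, e' t) : St (Fin n) n × (Fin n → ℝ))) 0) := by
        simp only [zero_smul, add_zero, he0]
        exact hd
      exact h2.comp_hasDerivAt 0 (hld.prodMk hed)
    have hB : HasDerivAt (fun t => Ψ (chF a (c t).1, η t)) (fderiv ℝ Ψ (z₀, η 0) (z, η')) 0 := by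
      have h2 : HasFDerivAt Ψ (fderiv ℝ Ψ (z₀, η 0))
          ((fun t : ℝ => ((chF a (c t).1, η t) : St (Fin n) n × (Fin n → ℝ))) 0) := hd
      exact h2.comp_hasDerivAt 0 (hz.prodMk hη)
    have hE := h1.unique hA
    rw [hE]
    refine hB.congr_of_eventuallyEq ?_
    filter_upwards [H608.eventually_source hc ha] with t ht
    change _ = (chF b (CSys.flow (horVF g (η t)) s (r (chF a (c t).1))).1).1
    have h2 : r (chF a (c t).1) = c t := retr_chF a (c t) ht
    rw [h2]
    rfl

end Vale.Agent.P207.H248
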