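import Vale.Agent.P207.H248.VarF

/-!
# P207, second order expansion: initial values and the velocity of the end point (helper248)

`fA_zero`, `fB_zero`: initial values of the Jacobi system; `hasDerivAt_end`: the velocity of the
end point.
-/

open scoped Manifold ContDiff ENNReal Topology
open Bundle MeasureTheory Set Filter Topology

noncomputable section

set_option maxSynthPendingDepth 3
set_option linter.unusedSectionVars false

namespace Vale.Agent.P207.H248

open Vale.Agent.P255 (RMetric coefIn Gam Riem IsGeo Metric Npc ExpSys toMetric geo expg cc trans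
  IsGeodesic coefL chris chrisB IsMetricOn covD vel prodF Compat IsJacobi curv)
open Vale.Agent.P207.Q Vale.Agent.P207.Q.Fl
open Vale.Agent.P207.Q.H545 (Rf Rf_eq)

variable {n : ℕ} {M : Type} [TopologicalSpace M] [ChartedSpace (EV n) M]
  [IsManifold 𝓘(ℝ, EV n) ∞ M] {g : RMetric (EV n) M}
  [Nonempty (Fr g)] [NeZero n] [CompactSpace M] [T2Space M]
  {ξ : ℝ → Fin n → ℝ} {f : ℝ → Fr g}

theorem fam_zero (t : ℝ) : fam ξ f (0, t) = f t := CSys.flow_zero _ _

/-- the initial value of the variation field -/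
theorem fJ_zero (hf : (frSys g).dif.At f 0) (hξ : Sm ξ 0) {a : M}
    (ha : (f 0).pt ∈ (chartAt (EV n) a).source) {z : St (Fin n) n}
    (hz : HasDerivAt (fun t => chF a (f t).1) z 0) : fJ ξ f a 0 = z.1 := by
  have ha' : fγ ξ f 0 ∈ (chartAt (EV n) a).source := by
    unfold fγ
    rw [fam_zero]
    exact ha
  have h1 := hasDerivAt_slice2 (sm_fx hf hξ ha').differentiableAt
  have h2 : (fun t => fx ξ f a (0, t)) = fun t => (chF a (f t).1).1 := by
    funext t
    unfold fx
    rw [fam_zero]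
  rw [h2] at h1
  exact h1.unique hz.fst

/-- the initial value of the covariant derivative of the variation field -/
theorem covD_fJ_zero (hf : (frSys g).dif.At f 0) (hξ : Sm ξ 0) {a : M}
    (ha : (f 0).pt ∈ (chartAt (EV n) a).source) {z : St (Fin n) n}
    (hz : HasDerivAt (fun t => chF a (f t).1) z 0) {η : Fin n → ℝ} (hη : HasDerivAt ξ η 0) :
    covD ((mt g).coef a) (cc (fγ ξ f) a) (fJ ξ f a) 0 =
      ∑ j, η j • (chF a (f 0).1).2 j + ∑ j, ξ 0 j • (z.2 j +
        chris ((mt g).coef a) (chF a (f 0).1).1 z.1 ((chF a (f 0).1).2 j)) := by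
  have ha' : fγ ξ f 0 ∈ (chartAt (EV n) a).source := by
    unfold fγ
    rw [fam_zero]
    exact ha
  have hm := (mt g).isMetricOn a
  have hU : (chF a (f 0).1).1 ∈ (chartAt (EV n) a).target := (chartAt (EV n) a).map_source ha
  have hs := sm_fx hf hξ ha'
  have h1 : HasDerivAt (fJ ξ f a) (xs (xt (fx ξ f a)) (0, 0)) 0 :=
    hasDerivAt_slice1 (smXt hs).differentiableAt
  rw [xs_xt hs] at h1
  have h2 : HasDerivAt (fun t => xs (fx ξ f a) (0, t)) (xt (xs (fx ξ f a)) (0, 0)) 0 :=
    hasDerivAt_slice2 (smXs hs).differentiableAt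
  have hc2 : ContinuousAt (fun t : ℝ => (((0 : ℝ), t) : ℝ × ℝ)) 0 := by fun_prop
  have h3 : (fun t => xs (fx ξ f a) (0, t)) =ᶠ[𝓝 0] fun t =>
      ∑ i, ξ t i • (chF a (f t).1).2 i := by
    filter_upwards [hc2.eventually (hs.eventually.and (ev_source hf hξ ha'))] with t ht
    rw [xs_fx ht.1 ht.2]
    simp only [fam_zero]
  have h4 : HasDerivAt (fun t => ∑ i, ξ t i • (chF a (f t).1).2 i)
      (∑ i, (ξ 0 i • z.2 i + η i • (chF a (f 0).1).2 i)) 0 := by
    refine HasDerivAt.fun_sum fun i _ => ?_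
    exact (hasDerivAt_pi.1 hη i).smul (hasDerivAt_pi.1 hz.snd i)
  have h5 := (h2.congr_of_eventuallyEq h3.symm).unique h4
  have h6 : deriv (cc (E := EV n) (fγ ξ f) a) 0 = ∑ i, ξ 0 i • (chF a (f 0).1).2 i := by
    rw [vel_fγ ha']
    unfold fe
    rw [fam_zero]
  have h7 : cc (E := EV n) (fγ ξ f) a 0 = (chF a (f 0).1).1 := by
    rw [cc_fγ]
    change (chF a (fam ξ f (0, 0)).1).1 = _
    rw [fam_zero]
  unfold covD
  rw [h1.deriv, h5, h6, h7, fJ_zero hf hξ ha hz, hm.chris_symm hU, ← P255.chrisB_apply, map_sum,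
    ← Finset.sum_add_distrib, ← Finset.sum_add_distrib]
  refine Finset.sum_congr rfl fun i _ => ?_
  rw [map_smul, P255.chrisB_apply]
  module

theorem fA_zero (hf : (frSys g).dif.At f 0) (hξ : Sm ξ 0) {a : M}
    (ha : (f 0).pt ∈ (chartAt (EV n) a).source) {z : St (Fin n) n}
    (hz : HasDerivAt (fun t => chF a (f t).1) z 0) (i : Fin n) :
    fA ξ f 0 i = (mt g).coef a (chF a (f 0).1).1 z.1 ((chF a (f 0).1).2 i) := by
  have ha' : fγ ξ f 0 ∈ (chartAt (EV n) a).source := by
    unfold fγ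
    rw [fam_zero]
    exact ha
  rw [fA_eq hf hξ 0 i ha', fJ_zero hf hξ ha hz]
  unfold fe
  rw [cc_fγ]
  unfold fx
  simp only [fam_zero]

theorem fB_zero (hf : (frSys g).dif.At f 0) (hξ : Sm ξ 0) {a : M}
    (ha : (f 0).pt ∈ (chartAt (EV n) a).source) {z : St (Fin n) n}
    (hz : HasDerivAt (fun t => chF a (f t).1) z 0) {η : Fin n → ℝ} (hη : HasDerivAt ξ η 0)
    (i : Fin n) :
    fB ξ f 0 i = η i + ∑ j, ξ 0 j * (mt g).coef a (chF a (f 0).1).1 (z.2 j +
        chris ((mt g).coef a) (chF a (f 0).1).1 z.1 ((chF a (f 0).1).2 j))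
        ((chF a (f 0).1).2 i) := by
  have ha' : fγ ξ f 0 ∈ (chartAt (EV n) a).source := by
    unfold fγ
    rw [fam_zero]
    exact ha
  rw [fB_eq hf hξ 0 i ha', covD_fJ_zero hf hξ ha hz hη]
  unfold fe
  rw [cc_fγ]
  unfold fx
  simp only [fam_zero]
  rw [map_add, _root_.add_apply, map_sum, map_sum, _root_.sum_apply, _root_.sum_apply]
  congr 1
  · have h1 : ∀ j, (mt g).coef a (chF a (f 0).1).1 ((chF a (f 0).1).2 j) ((chF a (f 0).1).2 i) =
        if j = i then 1 else 0 := fun j => orth_chFg g (f 0) a ha j i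
    simp only [map_smul, _root_.smul_apply, smul_eq_mul, h1, mul_ite, mul_one, mul_zero,
      Finset.sum_ite_eq', Finset.mem_univ, if_true]
  · exact Finset.sum_congr rfl fun j _ => by rw [map_smul, _root_.smul_apply, smul_eq_mul]

/-- **the velocity of the end point** -/
theorem hasDerivAt_end (hf : (frSys g).dif.At f 0) (hξ : Sm ξ 0) (s : ℝ) {b : M}
    (hb : (fam ξ f (s, 0)).pt ∈ (chartAt (EV n) b).source) :
    HasDerivAt (fun t => chartAt (EV n) b (fam ξ f (s, t)).pt)
      (∑ i, fA ξ f s i • (chF b (fam ξ f (s, 0)).1).2 i) 0 := by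
  have h1 := hasDerivAt_slice2 (sm_fx hf hξ hb).differentiableAt
  have h2 := fJ_eq hf hξ s hb
  unfold fJ at h2
  rw [h2] at h1
  exact h1

end Vale.Agent.P207.H248
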