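import Vale.Agent.P207.H248.HorP

/-!
# P207, second order expansion: variations through geodesics (helper248)

`var_jacobi`: in a chart, the variation field of a smooth family of geodesics satisfies the
linearised geodesic equation.
-/

open scoped Manifold ContDiff ENNReal Topology
open Bundle MeasureTheory Set Filter Topology

noncomputable section

set_option maxSynthPendingDepth 3
set_option linter.unusedSectionVars false

namespace Vale.Agent.P207.H248

open Vale.Agent.P255 (RMetric coefIn Gam Riem IsGeo Metric Npc ExpSys toMetric geo expg cc trans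
  IsGeodesic coefL chris chrisB IsMetricOn covD)
open Vale.Agent.P207.Q Vale.Agent.P207.Q.Fl

section Calc

variable {E : Type} [NormedAddCommGroup E] [NormedSpace ℝ E]

/-- the derivative of `x` in the second variable -/
def xt (x : ℝ × ℝ → E) (p : ℝ × ℝ) : E := fderiv ℝ x p (0, 1)

/-- the derivative of `x` in the first variable -/
def xs (x : ℝ × ℝ → E) (p : ℝ × ℝ) : E := fderiv ℝ x p (1, 0)

variable {x : ℝ × ℝ → E} {p : ℝ × ℝ}

theorem sm_dir (hx : Sm x p) (v : ℝ × ℝ) : Sm (fun q => fderiv ℝ x q v) p :=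
  Sm.comp (f := fun L : ℝ × ℝ →L[ℝ] E => L v)
    (Sm.of_contDiff (ContinuousLinearMap.apply ℝ E v).contDiff _) hx.fderiv

theorem smXt (hx : Sm x p) : Sm (xt x) p := sm_dir hx _

theorem smXs (hx : Sm x p) : Sm (xs x) p := sm_dir hx _

theorem hasDerivAt_slice1 {y : ℝ × ℝ → E} {s t : ℝ} (hy : DifferentiableAt ℝ y (s, t)) :
    HasDerivAt (fun r => y (r, t)) (H248.xs y (s, t)) s := by
  have h1 : HasDerivAt (fun r : ℝ => ((r, t) : ℝ × ℝ)) (1, 0) s :=
    (hasDerivAt_id s).prodMk (hasDerivAt_const s t)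
  exact HasFDerivAt.comp_hasDerivAt (f := fun r : ℝ => ((r, t) : ℝ × ℝ)) s hy.hasFDerivAt h1

theorem hasDerivAt_slice2 {y : ℝ × ℝ → E} {s t : ℝ} (hy : DifferentiableAt ℝ y (s, t)) :
    HasDerivAt (fun r => y (s, r)) (H248.xt y (s, t)) t := by
  have h1 : HasDerivAt (fun r : ℝ => ((s, r) : ℝ × ℝ)) (0, 1) t :=
    (hasDerivAt_const t s).prodMk (hasDerivAt_id t)
  exact HasFDerivAt.comp_hasDerivAt (f := fun r : ℝ => ((s, r) : ℝ × ℝ)) t hy.hasFDerivAt h1

/-- mixed derivatives commute -/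
theorem xs_xt (hx : Sm x p) : H248.xs (H248.xt x) p = H248.xt (H248.xs x) p := by
  have h1 : IsSymmSndFDerivAt ℝ x p :=
    hx.contDiffAt.isSymmSndFDerivAt (by
      rw [minSmoothness_of_isRCLikeNormedField]
      exact WithTop.coe_le_coe.2 le_top)
  have hd : DifferentiableAt ℝ (fderiv ℝ x) p := hx.fderiv.differentiableAt
  have h2 : ∀ v w : ℝ × ℝ, fderiv ℝ (fun q => fderiv ℝ x q v) p w = fderiv ℝ (fderiv ℝ x) p w v := by
    intro v w
    have h3 : HasFDerivAt (fun q => fderiv ℝ x q v)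
        ((ContinuousLinearMap.apply ℝ E v).comp (fderiv ℝ (fderiv ℝ x) p)) p :=
      HasFDerivAt.comp (g := fun L : ℝ × ℝ →L[ℝ] E => L v) p
        (ContinuousLinearMap.apply ℝ E v).hasFDerivAt hd.hasFDerivAt
    rw [h3.fderiv]
    rfl
  unfold H248.xs H248.xt
  rw [h2, h2]
  exact h1 _ _

end Calc

variable {n : ℕ}

/-- the linearised geodesic equation -/
theorem var_jacobi {G : EV n → EV n →L[ℝ] EV n →L[ℝ] ℝ} {U : Set (EV n)} (h : IsMetricOn G U)
    {x : ℝ × ℝ → EV n} {s₀ : ℝ} (hx : Sm x (s₀, 0)) (hU : x (s₀, 0) ∈ U)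
    (hgeo : ∀ᶠ p in 𝓝 (s₀, (0 : ℝ)), xs (xs x) p = - chris G (x p) (xs x p) (xs x p)) :
    (∀ᶠ s in 𝓝 s₀, HasDerivAt (fun s => x (s, 0)) (xs x (s, 0)) s ∧
      HasDerivAt (fun s => xt x (s, 0)) (xt (xs x) (s, 0)) s ∧
      HasDerivAt (fun s => xs x (s, 0)) (- chris G (x (s, 0)) (xs x (s, 0)) (xs x (s, 0))) s) ∧
    HasDerivAt (fun s => xt (xs x) (s, 0))
      (-(fderiv ℝ (fun p => chris G p (xs x (s₀, 0)) (xs x (s₀, 0))) (x (s₀, 0)) (xt x (s₀, 0))
        + (2 : ℝ) • chris G (x (s₀, 0)) (xs x (s₀, 0)) (xt (xs x) (s₀, 0)))) s₀ := by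
  have hc : ContinuousAt (fun s : ℝ => ((s, (0 : ℝ)) : ℝ × ℝ)) s₀ := by fun_prop
  have hxe : ∀ᶠ s in 𝓝 s₀, Sm x (s, 0) := hc.eventually hx.eventually
  have hge : ∀ᶠ s in 𝓝 s₀, xs (xs x) (s, 0) =
      - chris G (x (s, 0)) (xs x (s, 0)) (xs x (s, 0)) := hc.eventually hgeo
  refine ⟨?_, ?_⟩
  · filter_upwards [hxe, hge] with s h1 h2
    refine ⟨hasDerivAt_slice1 h1.differentiableAt, ?_, ?_⟩
    · rw [← xs_xt h1]
      exact hasDerivAt_slice1 (smXt h1).differentiableAt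
    · rw [← h2]
      exact hasDerivAt_slice1 (smXs h1).differentiableAt
  · -- `∂_s ∂_t v = ∂_t ∂_s v`, `v = ∂_s x`
    have h1 : HasDerivAt (fun s => xt (xs x) (s, 0)) (xs (xt (xs x)) (s₀, 0)) s₀ :=
      hasDerivAt_slice1 (smXt (smXs hx)).differentiableAt
    refine h1.congr_deriv ?_
    rw [xs_xt (smXs hx)]
    have h2 : HasDerivAt (fun t => xs (xs x) (s₀, t)) (xt (xs (xs x)) (s₀, 0)) 0 :=
      hasDerivAt_slice2 (smXs (smXs hx)).differentiableAt
    have hc2 : ContinuousAt (fun t : ℝ => ((s₀, t) : ℝ × ℝ)) 0 := by fun_prop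
    have h3 : (fun t => xs (xs x) (s₀, t)) =ᶠ[𝓝 0] fun t =>
        - chrisB G (x (s₀, t)) (xs x (s₀, t)) (xs x (s₀, t)) := by
      filter_upwards [hc2.eventually hgeo] with t ht
      rw [ht, P255.chrisB_apply]
    have h4 : HasDerivAt (fun t => x (s₀, t)) (xt x (s₀, 0)) 0 :=
      hasDerivAt_slice2 hx.differentiableAt
    have h5 : HasDerivAt (fun t => xs x (s₀, t)) (xt (xs x) (s₀, 0)) 0 :=
      hasDerivAt_slice2 (smXs hx).differentiableAt
    have h6 : HasDerivAt (fun t => chrisB G (x (s₀, t)))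
        (fderiv ℝ (chrisB G) (x (s₀, 0)) (xt x (s₀, 0))) 0 :=
      HasFDerivAt.comp_hasDerivAt (l := chrisB G) (f := fun t => x (s₀, t)) 0
        (h.differentiableAt_chrisB hU).hasFDerivAt h4
    have h7 := ((h6.clm_apply h5).clm_apply h5).neg
    have h8 := (h2.congr_of_eventuallyEq h3.symm).unique h7
    rw [h8]
    have h9 : fderiv ℝ (fun p => chris G p (xs x (s₀, 0)) (xs x (s₀, 0))) (x (s₀, 0)) (xt x (s₀, 0)) =
        fderiv ℝ (chrisB G) (x (s₀, 0)) (xt x (s₀, 0)) (xs x (s₀, 0)) (xs x (s₀, 0)) := by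
      have h10 : (fun p => chris G p (xs x (s₀, 0)) (xs x (s₀, 0))) =
          fun p => chrisB G p (xs x (s₀, 0)) (xs x (s₀, 0)) := by
        funext p
        rw [P255.chrisB_apply]
      have h11 : HasFDerivAt (fun p => chrisB G p (xs x (s₀, 0)) (xs x (s₀, 0)))
          ((ContinuousLinearMap.apply ℝ (EV n) (xs x (s₀, 0))).comp
            ((ContinuousLinearMap.apply ℝ (EV n →L[ℝ] EV n) (xs x (s₀, 0))).comp
              (fderiv ℝ (chrisB G) (x (s₀, 0))))) (x (s₀, 0)) := by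
        have h12 := (h.differentiableAt_chrisB hU).hasFDerivAt
        exact HasFDerivAt.comp (x (s₀, 0)) (ContinuousLinearMap.apply ℝ (EV n) (xs x (s₀, 0))).hasFDerivAt
          (HasFDerivAt.comp (x (s₀, 0)) (ContinuousLinearMap.apply ℝ (EV n →L[ℝ] EV n) (xs x (s₀, 0))).hasFDerivAt h12)
      rw [h10, h11.fderiv]
      rfl
    rw [h9, ← P255.chrisB_apply]
    have h13 : chrisB G (x (s₀, 0)) (xt (xs x) (s₀, 0)) (xs x (s₀, 0)) =
        chrisB G (x (s₀, 0)) (xs x (s₀, 0)) (xt (xs x) (s₀, 0)) := by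
      rw [P255.chrisB_apply, P255.chrisB_apply]
      exact h.chris_symm hU _ _
    simp only [add_apply]
    rw [h13]
    module

end Vale.Agent.P207.H248
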